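import Vale.Agent.P088.R2.H912.A.Wx
import Vale.Agent.P088.R2.H281.A.Sup
import Vale.Agent.P088.R2.H509.EP.Side

/-!
# P088, stage 3, zone A: the rows `RowWX`, `RowSup`
-/

open Set Filter
open scoped ContDiff Topology

noncomputable section

namespace Vale.Agent.P088.R2.H912.A

open Vale.Agent.P088.R2.H31.EP Vale.Agent.P088.R2.H867.EP

variable {n : ℕ}

/-- **Row A-WX**, literally. -/
theorem rowWX (n : ℕ) : H281.A.RowWX n := by
  refine (((evTw n).and (H281.A.supp_OmB n)).and ((EvC.litSm n).and EvC.pos)).mono ?_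
  rintro q ⟨⟨T, hB⟩, hs, p⟩ d h k hk z hz
  have hP := (hs d h).cp
  have O := ob_of (hB d h k (H281.A.off_A hk) (subset_tsupport _ hz))
  have T0 := T.rT0
  have r0 : 0 < d.r2 z := lt_of_le_of_lt (sq_nonneg _) O.r
  have hNG : 0 < d.NG q z := by
    have := h.NG_ge T.rad z
    linarith [T.T.M1]
  have p1 := T.p1
  have hn : (q.rT * d.NG q z / 2) ^ 2 ≤ (2 * q.rT * d.NG q z) ^ 2 := by
    have : 0 < q.rT * d.NG q z := mul_pos T0 hNG
    exact pow_le_pow_left₀ (by positivity) (by linarith) 2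
  have hr : k ≠ .Af → rr d z ≤ 2 * q.p₁ := fun h0 => by
    have h1 := sd_nf hz (H281.A.off_A hk) h0 hP
    rw [← rr_sq r0] at h1
    exact le_of_sq_le_sq h1 (by linarith)
  rcases hk with rfl | rfl | rfl
  · have h1 := hr (by decide)
    have h2 := sd_nT1 T0 hNG hz (Or.inr rfl)
    have h3 := sd_A1 T0 hNG hz
    exact ⟨(wx2 T h O (Or.inr ⟨h1, h2.le⟩)).le, (wy2 T h O (Or.inr ⟨h1, h3.le⟩)).le⟩
  · have h1 := hr (by decide)
    have h2 := sd_nP1 T0 hNG hz (Or.inr rfl)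
    have h3 := sd_A2 T0 hNG hz
    exact ⟨(wx2 T h O (Or.inr ⟨h1, hn.trans h2.le⟩)).le,
      (wy2 T h O (Or.inr ⟨h1, hn.trans h3.le⟩)).le⟩
  · have h1 : 3 / 2 * q.p₁ ≤ rr d z := by
      have h1 := sd_Af hz hP
      rw [← rr_sq r0] at h1
      exact le_of_sq_le_sq h1 (rr_pos r0).le
    exact ⟨(wx2 T h O (Or.inl h1)).le, (wy2 T h O (Or.inl h1)).le⟩

/-- **Row A-SUP.** -/
theorem rowSup (n : ℕ) : H747.A.RowSup n := H281.A.rowSup_of (rowWX n)

end Vale.Agent.P088.R2.H912.A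

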