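import Vale.Agent.P088.R2.H912.A.Wx

/-!
# P088, stage 3: the weight is close to the flat weight

For `c₀ / 2 < r ≤ 3 p₁`, where the correction is not active (in particular for `r > 2`).
-/

open Set Filter
open scoped ContDiff Topology

noncomputable section

namespace Vale.Agent.P088.R2.H912.A

open Vale.Agent.P088.LR Vale.Agent.P088.R2.H464.Cu Vale.Agent.P088.R2.H230.W
open Vale.Agent.P088.HY hiding dd
open Vale.Agent.P088.R2.H31.EP hiding r2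
open Vale.Agent.P088.R2.H31.EP (r2)

variable {n : ℕ} {z : VV n} {q : Cst} {d : Pk n}

/-- The weight, its gradients and `G` are close to the flat ones. -/
structure ClW (q : Cst) (d : Pk n) (z : VV n) (δ : ℝ) : Prop where
  u : d.u q z = d.u0 z
  x : nn (Dv ex (d.W q) z - Dv ex (d.W0 q) z) ≤ δ * d.NG q z
  y : nn (Dv ey (d.W q) z - Dv ey (d.W0 q) z) ≤ δ * d.NG q z
  G : |H747.A.GG q d z - d.G0 q z| ≤ δ * d.G0 q z
  G0 : 0 < d.G0 q z
  NG : |H747.A.NG q d z - d.NG q z| ≤ δ * d.NG q z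

theorem ClW.dx {δ : ℝ} (h : ClW q d z δ) (i : Fin n) :
    |dx i (d.W q) z - dx i (d.W0 q) z| ≤ δ * d.NG q z :=
  (abs_le_nn (Dv ex (d.W q) z - Dv ex (d.W0 q) z) i).trans h.x

theorem ClW.dy {δ : ℝ} (h : ClW q d z δ) (i : Fin n) :
    |dy i (d.W q) z - dy i (d.W0 q) z| ≤ δ * d.NG q z :=
  (abs_le_nn (Dv ey (d.W q) z - Dv ey (d.W0 q) z) i).trans h.y

/-- The threshold of the closeness. -/
theorem evCl (n : ℕ) (δ : Cst → ℝ) (hδ : NB_ε δ) : EvC fun q => 0 < δ q →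
    600 * (MS q * tq n q * (4 * q.p₁) ^ 3) ≤ δ q * prS q.e₁ (q.c₀ ^ 2 / 16) := by
  have a2 := EvC.at_ε (fun q t => 0 < q.e₁ ∧ 0 < q.c₀ ∧ 0 < δ q → 600 * (MS q * (3 * (n : ℝ) ^ 3 *
      Cg n) * (4 * q.p₁) ^ 3) * t ≤ δ q * prS q.e₁ (q.c₀ ^ 2 / 16)) fun q =>
    ev_impl fun h => ev_lin _
        (mul_pos h.2.2 (S_pos h.1 (by have := h.2.1; positivity)))
  refine (a2.and EvC.pos).mono ?_
  rintro q ⟨b1, ⟨-, e0, -, -, -, c0, -, rT0, -, -⟩, -⟩ h
  have h1 : 0 < δ q.b_ε := by rwa [hδ q]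
  have b2 : 600 * (MS q * (3 * (n : ℝ) ^ 3 * Cg n) * (4 * q.p₁) ^ 3) * q.ε ≤
    δ q.b_ε * prS q.e₁ (q.c₀ ^ 2 / 16) := b1 ⟨e0, c0, h1⟩
  rw [hδ q] at b2
  unfold tq
  linarith

/-- **The closeness.** -/
theorem closeW (n : ℕ) (δ : Cst → ℝ) (hδ : NB_ε δ) : EvC fun q => 0 < δ q → ∀ d : Pk n, PkOk q d →
    ∀ z, OB q d z → Ina q d z → H747.A.rr d z ≤ 3 * q.p₁ → ClW q d z (δ q) := by
  refine ((evTw n).and (evCl n δ hδ)).mono fun q hq h0 d h z O hi hr => ?_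
  obtain ⟨T, hC⟩ := hq
  have PX := pt_ok dirX T h O
  have PY := pt_ok dirY T h O
  obtain ⟨x1, x2, x3⟩ := cut_close dirX T h O PX (Or.inl rfl) hi hr (hC h0)
  obtain ⟨y1, -, -⟩ := cut_close dirY T h O PY (Or.inr rfl) hi hr (hC h0)
  have hG : H747.A.GG q d z = GG q d z := GG_eq PX.r0
  have hu := u_ina hi
  have e1 : d.NG q z = deriv d.Φ (d.u0 z) + d.G0 q z := rfl
  have hN := N_one T h (d.u0 z)
  have h1 : 0 < δ q * d.NG q z := mul_pos h0 (by rw [e1]; linarith)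
  have h2 : 0 < δ q * d.G0 q z := mul_pos h0 x3
  have h3 : 0 < δ q * deriv d.Φ (d.u0 z) := mul_pos h0 (by linarith)
  refine ⟨hu, by linarith, by linarith, ?_, x3, ?_⟩
  · rw [hG]
    linarith
  · have e2 : H747.A.NG q d z - d.NG q z = GG q d z - d.G0 q z := by
      rw [(NG_eq T h O).1, e1, hu]
      ring
    rw [e2, e1]
    linarith

/-- The correction is not active for `r > 2`. -/
theorem ina_of (h : PkOk q d) (hr : 4 < d.r2 z) : Ina q d z := Or.inl (chi_hi h hr)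

/-- The closeness at the passes. -/
theorem closeP (n : ℕ) (δ : Cst → ℝ) (hδ : NB_ε δ) : EvC fun q => 0 < δ q → ∀ d : Pk n, PkOk q d →
    ∀ z ∈ H747.A.OmB q d, 4 < d.r2 z → d.r2 z ≤ (3 * q.p₁) ^ 2 → ClW q d z (δ q) := by
  refine ((closeW n δ hδ).and (evTw n)).mono fun q hq h0 d h z hz h4 hr => ?_
  refine hq.1 h0 d h z (ob_of hz) (ina_of h h4) ?_
  have r0 : 0 < d.r2 z := by linarith
  have h1 := hr
  rw [← rr_sq r0] at h1
  exact le_of_sq_le_sq h1 (by linarith [hq.2.p1])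

end Vale.Agent.P088.R2.H912.A
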