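import Vale.Agent.P088.R2.H912.A.WxR
import Vale.Agent.P088.R2.H747.A.Rows

/-!
# P088, stage 3, zone A: the row A-WX

In zone A (without the conditions on `W_x`, `W_y`) the conditions of the cuts give the lower bounds
of `|W_x|`, `|W_y|`.
-/

open Set Filter
open scoped ContDiff Topology

noncomputable section

namespace Vale.Agent.P088.R2.H912.A

open Vale.Agent.P088.LR Vale.Agent.P088.R2.H464.Cu Vale.Agent.P088.R2.H230.W
open Vale.Agent.P088.HY hiding dd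
open Vale.Agent.P088.R2.H31.EP hiding r2
open Vale.Agent.P088.R2.H31.EP (r2)
open Vale.Agent.P088.R2.H932.EP (cSt)

variable {n : ℕ} {z : VV n} {q : Cst} {d : Pk n}

theorem ev_lin (C : ℝ) {b : ℝ} (hb : 0 < b) : ∀ᶠ t in sml, C * t ≤ b := by
  have h0 : 0 < |C| + 1 := by positivity
  refine ev_sml (a := b / (|C| + 1)) (by positivity) fun t h1 h2 => ?_
  rw [le_div_iff₀ h0] at h2
  have := mul_le_mul_of_nonneg_right (le_abs_self C) h1.le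
  nlinarith

theorem ev_impl {f : Filter ℝ} {P : Prop} {p : ℝ → Prop} (h : P → ∀ᶠ t in f, p t) :
    ∀ᶠ t in f, P → p t := by
  by_cases hP : P
  · exact (h hP).mono fun _ ht _ => ht
  · exact Eventually.of_forall fun _ h => absurd h hP

/-- **The thresholds.** -/
theorem evTw (n : ℕ) : EvC (Tw n) := by
  have hC := Cg_one n
  have a1 := EvC.at_rT (fun q t => t ≤ 1 ∧ (0 < q.e₁ → t ≤ q.e₁ / 2)) fun q =>
    (sml_le one_pos).and (ev_impl fun h => sml_le (by positivity))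
  have a2 := EvC.at_ε (fun q t => (t ≤ eg n ∧ n * t ≤ 1 / 2) ∧
      (3 * (n : ℝ) ^ 3 * Cg n * t ≤ 1 / 12 ∧
      (0 < q.e₁ → 120 * (3 * (n : ℝ) ^ 3 * Cg n) * t ≤ q.e₁)) ∧
      (0 < q.e₁ ∧ 0 < q.c₀ ∧ 0 < q.rT → 600 * (MS q * (3 * (n : ℝ) ^ 3 * Cg n) *
        (4 * q.p₁) ^ 3) * t ≤ q.rT * prS q.e₁ (q.c₀ ^ 2 / 16))) fun q =>
    ((sml_le (eg_pos n)).and (ev_lin _ (by norm_num))).and (((ev_lin _ (by norm_num)).and
      (ev_impl fun h => ev_lin _ h)).and (ev_impl fun h => ev_lin _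
        (mul_pos h.2.2 (S_pos h.1 (by have := h.2.1; positivity)))))
  have a3 := EvC.at_σ (fun q t => 0 < q.e₁ → 80 * t ≤ q.e₁) fun q =>
    ev_impl fun h => ev_lin _ h
  have a4 := EvC.at_es (fun q t => 0 < q.e₁ → 40 * t ≤ q.e₁) fun q =>
    ev_impl fun h => ev_lin _ h
  have a5 := EvC.at_M₀ (fun q t => (0 < q.c' → 4 * q.p₁ < q.c' * t / 2 * Real.exp (-1)) ∧
      400 * cSt * Real.log t ^ (-(1 / 2) : ℝ) ≤ 1) fun q => by
    refine (ev_impl fun h => ?_).and ?_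
    · have h1 : 0 < q.c' / 2 * Real.exp (-1) := by positivity
      filter_upwards [eventually_gt_atTop (4 * q.p₁ / (q.c' / 2 * Real.exp (-1)))] with t ht
      rw [div_lt_iff₀ h1] at ht
      linarith
    · have h1 : Tendsto (fun t : ℝ => Real.log t ^ (-(1 / 2) : ℝ)) atTop (𝓝 0) :=
        (tendsto_rpow_neg_atTop (by norm_num : (0 : ℝ) < 1 / 2)).comp Real.tendsto_log_atTop
      have h2 := h1.const_mul (400 * cSt)
      rw [mul_zero] at h2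
      exact h2.eventually_le_const one_pos
  have a6 := EvC.at_Cs (fun q t => 0 < q.e₁ ∧ 0 < q.c₀ → 40 * ((1 + q.ph.CT) * q.ph.Cb) ≤
      t * prS q.e₁ (q.c₀ ^ 2 / 16)) fun q => ev_impl fun h => by
    have h1 : 0 < prS q.e₁ (q.c₀ ^ 2 / 16) := S_pos h.1 (by have := h.2; positivity)
    filter_upwards [eventually_ge_atTop (40 * ((1 + q.ph.CT) * q.ph.Cb) /
      prS q.e₁ (q.c₀ ^ 2 / 16))] with t ht
    rwa [div_le_iff₀ h1] at ht
  have a7 := EvC.at_R (fun q t => (10 * cSt ≤ t ∧ 10 * (H281.EP.CP q.e₁ + 1) ≤ t) ∧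
      16 * (prL q.e₁ (q.c₀ / 2) + 1) ≤ Real.exp (t / 4)) fun q =>
    ((eventually_ge_atTop _).and (eventually_ge_atTop _)).and
      ((Real.tendsto_exp_atTop.comp (tendsto_id.atTop_div_const (by norm_num))).eventually_ge_atTop
        _)
  refine ((((H238.C.EvC.thr.and H404.INF.evInf).and (EvC.rad.and EvC.pos)).and (a1.and a2)).and
    ((a3.and a4).and ((a5.and a6).and a7))).mono ?_
  rintro q ⟨⟨⟨⟨hT, hI⟩, hr, ⟨-, e0, -, -, -, c0, -, rT0, -, -⟩, ⟨-, -, c'0, es0, Cs1, -, -⟩, -, -,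
    ε0, -, -, -⟩, ⟨b1, b2⟩, ⟨b3, b4⟩, ⟨b5, b6⟩, b7⟩, ⟨d1, d2⟩, ⟨⟨d3, d4⟩, d5⟩, ⟨d6, d7⟩, d8⟩
  have b6' : 120 * (3 * (n : ℝ) ^ 3 * Cg n) * q.ε ≤ q.e₁ := b6 e0
  have b7' : 600 * (MS q * (3 * (n : ℝ) ^ 3 * Cg n) * (4 * q.p₁) ^ 3) * q.ε ≤
    q.rT * prS q.e₁ (q.c₀ ^ 2 / 16) := b7 ⟨e0, c0, rT0⟩
  have d3' : 4 * q.p₁ < q.c' * q.M₀ / 2 * Real.exp (-1) := d3 c'0
  exact
    { T := hT, I := hI, rad := hr, rT0 := rT0, rT1 := b1, rT2 := b2 e0
      ε0 := ε0, ε1 := b3, ε2 := b4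
      t1 := by
        unfold tq
        linarith
      t2 := by
        unfold tq
        linarith
      t3 := by
        unfold tq
        linarith
      σe := d1 e0
      es0 := es0
      es1 := d2 e0
      r1 := d3'
      Cs1 := Cs1
      act := d5 ⟨e0, c0⟩
      mu := d4
      R1 := d6
      dp1 := d7
      dp2 := d8 }

/-! ### The row -/

theorem GG_eq (hr : 0 < d.r2 z) : H747.A.GG q d z = GG q d z := by
  show q.D 1 0 (d.u q z + Real.log (prS q.e₁ (√(d.r2 z) ^ 2)), √(d.r2 z)) = _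
  rw [Real.sq_sqrt hr.le]
  rfl

theorem nn_sq' (f : VV n → ℝ) (e : Fin n → VV n) (z : VV n) :
    nn (Dv e f z) ^ 2 = ∑ i, fderiv ℝ f z (e i) ^ 2 := by
  rw [nn_sq]
  unfold dd Dv
  exact Finset.sum_congr rfl fun i _ => (pow_two _).symm

theorem ob_of (hz : z ∈ H747.A.OmB q d) : OB q d z :=
  ⟨hz.1, hz.2.1, hz.2.2.1, hz.2.2.2.1, hz.2.2.2.2.1⟩

/-- The condition of the cuts for the slot `x`. -/
def CutX (q : Cst) (d : Pk n) (z : VV n) : Prop :=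
  3 / 2 * q.p₁ ≤ H747.A.rr d z ∨ (H747.A.rr d z ≤ 2 * q.p₁ ∧ 0 ≤ d.tx q q.rT z)

/-- The condition of the cuts for the slot `y`. -/
def CutY (q : Cst) (d : Pk n) (z : VV n) : Prop :=
  3 / 2 * q.p₁ ≤ H747.A.rr d z ∨ (H747.A.rr d z ≤ 2 * q.p₁ ∧ 0 ≤ d.ty q q.rT z)

theorem wx2_eq (q : Cst) (d : Pk n) (z : VV n) :
    H747.A.Wx2 q d z = nn (Dv ex (d.W q) z) ^ 2 := by
  rw [nn_sq']
  refine Finset.sum_congr rfl fun i _ => ?_
  show (1 * _) ^ 2 = _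
  rw [one_mul]
  rfl

theorem wy2_eq (q : Cst) (d : Pk n) (z : VV n) :
    H747.A.Wy2 q d z = nn (Dv ey (d.W q) z) ^ 2 := by
  rw [nn_sq']
  refine Finset.sum_congr rfl fun i _ => ?_
  show (1 * _) ^ 2 = _
  rw [one_mul]
  rfl

theorem NG_eq (T : Tw n q) (h : PkOk q d) (O : OB q d z) :
    H747.A.NG q d z = deriv d.Φ (d.u q z) + GG q d z ∧
      0 < deriv d.Φ (d.u q z) + GG q d z := by
  have r0 : 0 < d.r2 z := lt_of_le_of_lt (sq_nonneg _) O.r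
  refine ⟨?_, by linarith [N_one T h (d.u q z), GG_pos h r0]⟩
  rw [← GG_eq r0]; rfl

/-- The slot `x`. -/
theorem wx2 (T : Tw n q) (h : PkOk q d) (O : OB q d z) (hc : 3 / 2 * q.p₁ ≤ rr d z ∨
    (rr d z ≤ 2 * q.p₁ ∧ (q.rT * d.NG q z / 2) ^ 2 ≤ ∑ i, dx i (d.W0 q) z ^ 2)) :
    (q.rT / 6 * H747.A.NG q d z) ^ 2 < H747.A.Wx2 q d z := by
  obtain ⟨e1, e2⟩ := NG_eq T h O
  have T0 := T.rT0
  have h1 := wx_pt dirX T h O (Or.inl rfl) (by
    rcases hc with hc | ⟨hr, hc⟩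
    · exact Or.inl hc
    · refine Or.inr ⟨hr, ?_⟩
      have h2 : (q.rT * d.NG q z / 2) ^ 2 ≤ nn (Dv ex (d.W0 q) z) ^ 2 := by
        rw [nn_sq']
        exact hc
      have := le_of_sq_le_sq h2 (nn_nonneg _)
      linarith)
  rw [e1, wx2_eq]
  exact pow_lt_pow_left₀ h1 (by positivity) (by norm_num)

/-- The slot `y`. -/
theorem wy2 (T : Tw n q) (h : PkOk q d) (O : OB q d z) (hc : 3 / 2 * q.p₁ ≤ rr d z ∨
    (rr d z ≤ 2 * q.p₁ ∧ (q.rT * d.NG q z / 2) ^ 2 ≤ ∑ i, dy i (d.W0 q) z ^ 2)) :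
    (q.rT / 6 * H747.A.NG q d z) ^ 2 < H747.A.Wy2 q d z := by
  obtain ⟨e1, e2⟩ := NG_eq T h O
  have T0 := T.rT0
  have h1 := wx_pt dirY T h O (Or.inr rfl) (by
    rcases hc with hc | ⟨hr, hc⟩
    · exact Or.inl hc
    · refine Or.inr ⟨hr, ?_⟩
      have h2 : (q.rT * d.NG q z / 2) ^ 2 ≤ nn (Dv ey (d.W0 q) z) ^ 2 := by
        rw [nn_sq']
        exact hc
      have := le_of_sq_le_sq h2 (nn_nonneg _)
      linarith)
  rw [e1, wy2_eq]
  exact pow_lt_pow_left₀ h1 (by positivity) (by norm_num)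

theorem cut_sq {t a b : ℝ} (ht : 0 < t) (hb : 0 < b)
    (h : 0 ≤ (4 * a / (t * b) ^ 2 - 1) / 3) : (t * b / 2) ^ 2 ≤ a := by
  have h1 : 1 ≤ 4 * a / (t * b) ^ 2 := by linarith
  rw [le_div_iff₀ (by positivity)] at h1
  nlinarith

/-- **Row A-WX.** -/
theorem rowWx (n : ℕ) : EvC fun q => ∀ d : Pk n, PkOk q d → ∀ z ∈ H747.A.OmB q d,
    (CutX q d z → (q.rT / 6 * H747.A.NG q d z) ^ 2 < H747.A.Wx2 q d z) ∧
      (CutY q d z → (q.rT / 6 * H747.A.NG q d z) ^ 2 < H747.A.Wy2 q d z) := by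
  refine (evTw n).mono fun q T d h z hz => ?_
  have O := ob_of hz
  have hNG1 : 0 < d.NG q z := by
    have := h.NG_ge T.rad z
    linarith [T.T.M1]
  have T0 := T.rT0
  constructor
  · rintro (hc | ⟨hr, hc⟩)
    · exact wx2 T h O (Or.inl hc)
    · exact wx2 T h O (Or.inr ⟨hr, cut_sq T0 hNG1 hc⟩)
  · rintro (hc | ⟨hr, hc⟩)
    · exact wy2 T h O (Or.inl hc)
    · exact wy2 T h O (Or.inr ⟨hr, cut_sq T0 hNG1 hc⟩)

end Vale.Agent.P088.R2.H912.A
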