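import Vale.Agent.P088.R2.H912.A.WxA
import Vale.Agent.P088.R2.H464.EP.Bd
import Vale.Agent.P088.R2.H31.EP.Wgt

/-!
# P088, stage 3, zone A: gradients of `r²`, `l(x) + l(y)`
-/

open Set Filter
open scoped ContDiff Topology

noncomputable section

namespace Vale.Agent.P088.R2.H912.A

open Vale.Agent.P088.LR Vale.Agent.P088.HY Vale.Agent.P088.R2.H464.Cu Vale.Agent.P088.R2.H230.W
open Vale.Agent.P088.R2.H31.EP (r2)

variable {n : ℕ}

/-- The directions of a slot: `s = 1` for `x`, `s = -1` for `y`. -/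
structure Dir (e : Fin n → VV n) (s : ℝ) (pt : VV n → V n) : Prop where
  d : ∀ i j, dif (e i) j = s * (if i = j then 1 else 0)
  m : ∀ i, mid (e i) = (1 / 2 : ℝ) • Pi.single i 1
  s1 : |s| = 1
  l : ∀ (l : V n → ℝ) (z : VV n), DifferentiableAt ℝ l z.1 → DifferentiableAt ℝ l z.2 → ∀ i,
    Hv (e i) (fun z => l z.1 + l z.2) (pd i l (pt z)) z

/-- The directions `x_i`, `y_i`. -/
def ex (i : Fin n) : VV n := (Pi.single i 1, 0)
def ey (i : Fin n) : VV n := (0, Pi.single i 1)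

/-- The gradient in a family of directions. -/
def Dv (e : Fin n → VV n) (f : VV n → ℝ) (z : VV n) : V n := fun i => fderiv ℝ f z (e i)

theorem Dv_ex (f : VV n → ℝ) (z : VV n) (i : Fin n) : Dv ex f z i = dx i f z := rfl

theorem Dv_ey (f : VV n → ℝ) (z : VV n) (i : Fin n) : Dv ey f z i = dy i f z := rfl

theorem hv_l {l : V n → ℝ} {z w : VV n} (h1 : DifferentiableAt ℝ l z.1)
    (h2 : DifferentiableAt ℝ l z.2) :
    Hv w (fun z => l z.1 + l z.2) (fderiv ℝ l z.1 w.1 + fderiv ℝ l z.2 w.2) z := by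
  have a1 : HasFDerivAt (fun z : VV n => l z.1) ((fderiv ℝ l z.1).comp
      (ContinuousLinearMap.fst ℝ (V n) (V n))) z := h1.hasFDerivAt.comp z hasFDerivAt_fst
  have a2 : HasFDerivAt (fun z : VV n => l z.2) ((fderiv ℝ l z.2).comp
      (ContinuousLinearMap.snd ℝ (V n) (V n))) z := h2.hasFDerivAt.comp z hasFDerivAt_snd
  have a3 := a1.add a2
  refine ⟨a3.differentiableAt, ?_⟩
  have : fderiv ℝ (fun z : VV n => l z.1 + l z.2) z = _ := a3.fderiv
  rw [this]
  simp

theorem dirX : Dir (n := n) ex 1 Prod.fst where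
  d i j := by
    rw [dif_apply]
    simp only [ex, Pi.zero_apply, sub_zero, one_mul, Pi.single_apply]
    exact if_congr eq_comm rfl rfl
  m i := by
    unfold mid ex
    simp
  s1 := by norm_num
  l l z h1 h2 i := by
    have h := hv_l (w := ex i) h1 h2
    refine ⟨h.d, h.e.trans ?_⟩
    simp [ex, pd]

theorem dirY : Dir (n := n) ey (-1) Prod.snd where
  d i j := by
    rw [dif_apply]
    simp only [ey, Pi.zero_apply, zero_sub, Pi.single_apply]
    by_cases h : i = j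
    · subst h; simp
    · rw [if_neg (fun h' => h h'.symm), if_neg h]; simp
  m i := by
    unfold mid ey
    simp
  s1 := by norm_num
  l l z h1 h2 i := by
    have h := hv_l (w := ey i) h1 h2
    refine ⟨h.d, h.e.trans ?_⟩
    simp [ey, pd]

section r2

variable {e : Fin n → VV n} {s : ℝ} {pt : VV n → V n} {g : MF n} {O : Set (V n)} {ε δ₁ δ₂ : ℝ}
  {z : VV n}

theorem hv_r2 (D : Dir e s pt) (hg : ∀ i j, DifferentiableAt ℝ (fun x => g x i j) (mid z))
    (sy : ∀ x i j, g x i j = g x j i) (i : Fin n) :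
    Hv (e i) (r2 g) (2 * (s * ∑ j, g (mid z) i j * dif z j) +
      1 / 2 * ∑ j, ∑ k, pd i (fun x => g x j k) (mid z) * dif z j * dif z k) z := by
  have h := (rq_d hg sy (e i)).cmul 2
  refine ⟨h.d, h.e.trans ?_⟩
  have e1 : bf (g (mid z)) (dif (e i)) (dif z) = s * ∑ j, g (mid z) i j * dif z j := by
    unfold bf
    rw [Finset.sum_eq_single i]
    · rw [Finset.mul_sum]
      refine Finset.sum_congr rfl fun j _ => ?_
      rw [D.d, if_pos rfl]
      ring
    · intro b _ hb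
      refine Finset.sum_eq_zero fun j _ => ?_
      rw [D.d, if_neg (Ne.symm hb)]
      ring
    · intro h; exact absurd (Finset.mem_univ _) h
  have e2 : bf (dg (mid (e i)) g (mid z)) (dif z) (dif z) =
      1 / 2 * ∑ j, ∑ k, pd i (fun x => g x j k) (mid z) * dif z j * dif z k := by
    unfold bf dg pd
    rw [Finset.mul_sum]
    refine Finset.sum_congr rfl fun j _ => ?_
    rw [Finset.mul_sum]
    refine Finset.sum_congr rfl fun k _ => ?_
    rw [D.m, map_smul, smul_eq_mul]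
    ring
  rw [e1, e2]
  ring

theorem nn_le_card {u : Fin n → ℝ} {c : ℝ} (h : ∀ i, |u i| ≤ c) : nn u ≤ n * c := by
  refine (nn_le_l1 u).trans ?_
  calc ∑ i, |u i| ≤ ∑ _i : Fin n, c := Finset.sum_le_sum fun i _ => h i
    _ = _ := by simp

/-- **The gradient of `r²`.** -/
theorem Dv_r2 (D : Dir e s pt) (hO : IsOpen O) (h : Nr O ε δ₁ δ₂ g) (hz : mid z ∈ O) (ε0 : 0 ≤ ε)
    (hδ : δ₁ * nn (dif z) ≤ ε) :
    nn (Dv e (r2 g) z - (2 * s) • dif z) ≤ 3 * (n : ℝ) ^ 3 * (ε * nn (dif z)) := by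
  have hg : ∀ i j, DifferentiableAt ℝ (fun x => g x i j) (mid z) := fun i j =>
    (((h.sm i j) _ hz).contDiffAt (hO.mem_nhds hz)).differentiableAt (by simp)
  have q0 := nn_nonneg (dif z)
  have hi : ∀ i, |(Dv e (r2 g) z - (2 * s) • dif z) i| ≤ 3 * (n : ℝ) ^ 2 * (ε * nn (dif z)) := by
    intro i
    have n1 : (1 : ℝ) ≤ n := by
      have : 0 < n := i.pos
      exact_mod_cast this
    have e1 : (Dv e (r2 g) z - (2 * s) • dif z) i = 2 * (s * ∑ j, (g (mid z) i j -
        (1 : Matrix (Fin n) (Fin n) ℝ) i j) * dif z j) +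
        1 / 2 * ∑ j, ∑ k, pd i (fun x => g x j k) (mid z) * dif z j * dif z k := by
      have e2 : Dv e (r2 g) z i = _ := (hv_r2 D hg h.sy i).e
      have e3 : ∑ j, (1 : Matrix (Fin n) (Fin n) ℝ) i j * dif z j = dif z i := by
        simp [Matrix.one_apply]
      simp only [Pi.sub_apply, Pi.smul_apply, smul_eq_mul, sub_mul, Finset.sum_sub_distrib]
      rw [e2, e3]
      ring
    rw [e1]
    have b1 : |∑ j, (g (mid z) i j - (1 : Matrix (Fin n) (Fin n) ℝ) i j) * dif z j| ≤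
        n * (ε * nn (dif z)) := by
      refine sum_le1 fun j => ?_
      rw [abs_mul]
      exact mul_le_mul (h.b0 _ hz i j) (abs_le_nn _ j) (abs_nonneg _) ε0
    have b2 : |∑ j, ∑ k, pd i (fun x => g x j k) (mid z) * dif z j * dif z k| ≤
        (n : ℝ) ^ 2 * (ε * nn (dif z)) := by
      refine sum_le2 fun j k => ?_
      rw [abs_mul, abs_mul]
      have a1 : |pd i (fun x => g x j k) (mid z)| * |dif z j| ≤ δ₁ * nn (dif z) :=
        mul_le_mul (h.b1 _ hz i j k) (abs_le_nn _ j) (abs_nonneg _)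
          ((abs_nonneg _).trans (h.b1 _ hz i j k))
      exact mul_le_mul (a1.trans hδ) (abs_le_nn _ k) (abs_nonneg _) ε0
    refine (abs_add_le _ _).trans ?_
    rw [abs_mul, abs_mul, D.s1, abs_mul]
    have a0 : 0 ≤ ε * nn (dif z) := mul_nonneg ε0 q0
    have a1 : (n : ℝ) * (ε * nn (dif z)) ≤ (n : ℝ) ^ 2 * (ε * nn (dif z)) :=
      mul_le_mul_of_nonneg_right (by nlinarith) a0
    have a2 : |(2 : ℝ)| = 2 := by norm_num
    have a3 : |(1 / 2 : ℝ)| = 1 / 2 := by norm_num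
    rw [a2, a3]
    have a4 : 0 ≤ (n : ℝ) ^ 2 * (ε * nn (dif z)) := by positivity
    linarith
  refine (nn_le_card hi).trans (le_of_eq ?_)
  ring

/-- `r²` is close to `|q|²`. -/
theorem r2_sub (h : Nr O ε δ₁ δ₂ g) (hz : mid z ∈ O) (ε0 : 0 ≤ ε) :
    |r2 g z - nn (dif z) ^ 2| ≤ (n : ℝ) ^ 2 * (ε * nn (dif z) ^ 2) := by
  have e1 : r2 g z - nn (dif z) ^ 2 = ∑ i, ∑ j, (g (mid z) i j -
      (1 : Matrix (Fin n) (Fin n) ℝ) i j) * dif z i * dif z j := by
    have e3 : ∑ i, ∑ j, (1 : Matrix (Fin n) (Fin n) ℝ) i j * dif z i * dif z j =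
        nn (dif z) ^ 2 := by
      rw [nn_sq]
      unfold dd
      refine Finset.sum_congr rfl fun i _ => ?_
      rw [Finset.sum_eq_single i]
      · rw [Matrix.one_apply_eq, one_mul]
      · intro j _ hj; rw [Matrix.one_apply_ne (Ne.symm hj)]; ring
      · intro h; exact absurd (Finset.mem_univ _) h
    have e4 : r2 g z = ∑ i, ∑ j, g (mid z) i j * dif z i * dif z j := by
      unfold r2 rq bf
      ring
    simp only [sub_mul, Finset.sum_sub_distrib]
    rw [e3, e4]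
  rw [e1]
  refine sum_le2 fun i j => ?_
  rw [abs_mul, abs_mul]
  have a1 : |g (mid z) i j - (1 : Matrix (Fin n) (Fin n) ℝ) i j| * |dif z i| ≤
      ε * nn (dif z) := mul_le_mul (h.b0 _ hz i j) (abs_le_nn _ i) (abs_nonneg _) ε0
  calc _ ≤ ε * nn (dif z) * nn (dif z) :=
        mul_le_mul a1 (abs_le_nn _ j) (abs_nonneg _) (mul_nonneg ε0 (nn_nonneg _))
    _ = _ := by ring

end r2

end Vale.Agent.P088.R2.H912.A
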