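import Vale.Agent.P088.R2.H912.A.WxW
import Vale.Agent.P088.R2.H72.W.InvC
import Vale.Agent.P088.R2.H238.C.Pt
import Vale.Agent.P088.R2.H404.INF.Alv
import Vale.Agent.P088.R2.H932.EP.Pk1

/-!
# P088, stage 3, zone A: metric, radius, level at a point
-/

open Set Filter
open scoped ContDiff Topology

noncomputable section

namespace Vale.Agent.P088.R2.H912.A

open Vale.Agent.P088.LR Vale.Agent.P088.R2.H464.Cu Vale.Agent.P088.R2.H230.W
open Vale.Agent.P088.HY hiding dd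
open Vale.Agent.P088.R2.H31.EP hiding r2
open Vale.Agent.P088.R2.H31.EP (r2)
open Vale.Agent.P088.R2.H475 (wR en_add en_smul en_sub sq0 en_wR_le)
open Vale.Agent.P088.R2.H404.INF (InfC lvG)

variable {n : ℕ} {e : Fin n → VV n} {s : ℝ} {pt : VV n → V n} {z w : VV n} {q : Cst} {d : Pk n}

/-! ### The metric -/

theorem nn_single (i : Fin n) : ‖(Pi.single i 1 : V n)‖ = 1 := by
  refine le_antisymm ?_ ?_
  · refine (pi_norm_le_iff_of_nonneg zero_le_one).2 fun j => ?_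
    rw [Pi.single_apply]
    split_ifs <;> simp
  · have := norm_le_pi_norm (Pi.single i 1 : V n) i
    simpa using this

theorem pd_le_fd {f : V n → ℝ} {x : V n} (i : Fin n) : |pd i f x| ≤ ‖fderiv ℝ f x‖ := by
  unfold pd
  have h := (fderiv ℝ f x).le_opNorm (Pi.single i 1)
  rwa [nn_single, mul_one] at h

theorem nr_s₁ (h : PkOk q d) (hR : 1 ≤ q.R) (hε : 0 ≤ q.ε) :
    Nr univ q.ε (q.ε / q.R) q.ε d.s₁ where
  sm i j := (h.rg.sm₁ i j).contDiffOn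
  sy x i j := (h.rg.sy₁ x).apply j i
  b0 x _ i j := h.s₁_close x i j
  b1 x _ k i j := by
    have h1 := h.rg.cl₁ i j 1 (by norm_num) x
    rw [norm_iteratedFDeriv_one, fderiv_sub_const, pow_one] at h1
    refine (pd_le_fd k).trans (h1.trans (le_of_eq ?_))
    rw [div_eq_mul_inv]
  b2 x _ l k i j :=
    H932.EP.pd2_bk (H932.EP.ck_s h.rg hε hR (k := 0 + 2) (by norm_num) i j) (mem_univ x) k l

/-- Constants of the inverse metric. -/
def Cg (n : ℕ) : ℝ := (H72.W.rowInv n).choose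
def eg (n : ℕ) : ℝ := (H72.W.rowInv n).choose_spec.choose
theorem eg_pos (n : ℕ) : 0 < eg n := (H72.W.rowInv n).choose_spec.choose_spec.1
theorem Cg_one (n : ℕ) : 1 ≤ Cg n := (H72.W.rowInv n).choose_spec.choose_spec.2.1

theorem nr_g (h : PkOk q d) (hR : 1 ≤ q.R) (hε : 0 ≤ q.ε) (hε1 : q.ε ≤ eg n) :
    Nr univ (Cg n * q.ε) (Cg n * (q.ε / q.R)) (Cg n * (q.ε + (q.ε / q.R) ^ 2)) (gi d.s₁) :=
  ((H72.W.rowInv n).choose_spec.choose_spec.2.2 univ q.ε (q.ε / q.R) q.ε d.s₁ isOpen_univ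
    (nr_s₁ h hR hε) hε hε1 (by positivity) hε).1

/-! ### The radius -/

theorem nn_dif (z : VV n) : nn (dif z) ^ 2 = qq z := by
  rw [nn_sq, qq_eq]
  unfold dd
  refine Finset.sum_congr rfl fun i _ => ?_
  rw [dif_apply]
  ring

/-- Bounds of the gradient of the radius. -/
theorem rx_bd (D : Dir e s pt) {g : MF n} {ε' δ₁ δ₂ t : ℝ} (hg : Nr univ ε' δ₁ δ₂ g)
    (ε0 : 0 ≤ ε') (hδ : δ₁ * nn (dif z) ≤ ε') (ht : 3 * (n : ℝ) ^ 3 * ε' ≤ t) (t1 : t ≤ 1 / 6)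
    (hn : 1 ≤ n) (hr : 0 < r2 g z) :
    ((1 - t) * nn (dif z) ≤ √(r2 g z) ∧ √(r2 g z) ≤ (1 + t) * nn (dif z)) ∧
    1 - 2 * t ≤ nn ((2 * √(r2 g z))⁻¹ • Dv e (r2 g) z) ∧
      nn ((2 * √(r2 g z))⁻¹ • Dv e (r2 g) z) ≤ 1 + 3 * t := by
  have n1 : (1 : ℝ) ≤ n := by exact_mod_cast hn
  have t0 : 0 ≤ t := le_trans (by positivity) ht
  have h1 := r2_sub hg (mem_univ _) ε0 (z := z)
  have h2 := Dv_r2 D isOpen_univ hg (mem_univ _) ε0 hδ
  obtain ⟨a, ha⟩ : ∃ a, a = nn (dif z) := ⟨_, rfl⟩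
  rw [← ha] at h1 h2 ⊢
  have a0 : 0 ≤ a := ha ▸ nn_nonneg _
  have h3 : |r2 g z - a ^ 2| ≤ t * a ^ 2 := by
    refine h1.trans ?_
    have h4 : (n : ℝ) ^ 2 ≤ 3 * (n : ℝ) ^ 3 := by nlinarith [sq_nonneg (n : ℝ)]
    have h5 : (n : ℝ) ^ 2 * ε' ≤ t := (mul_le_mul_of_nonneg_right h4 ε0).trans ht
    calc _ = (n : ℝ) ^ 2 * ε' * a ^ 2 := by ring
      _ ≤ _ := mul_le_mul_of_nonneg_right h5 (sq_nonneg a)
  have h4 : nn (Dv e (r2 g) z - (2 * s) • dif z) ≤ t * a := by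
    refine h2.trans ?_
    calc _ = 3 * (n : ℝ) ^ 3 * ε' * a := by ring
      _ ≤ _ := mul_le_mul_of_nonneg_right ht a0
  have r0 : 0 < √(r2 g z) := Real.sqrt_pos.2 hr
  have rs : √(r2 g z) ^ 2 = r2 g z := Real.sq_sqrt hr.le
  obtain ⟨r, hr'⟩ : ∃ r, r = √(r2 g z) := ⟨_, rfl⟩
  rw [← hr'] at r0 rs ⊢
  rw [← rs] at h3
  have h3' := abs_le.1 h3
  have h5 : (1 - t) * a ≤ r := by
    refine le_of_sq_le_sq ?_ r0.le
    have e1 : ((1 - t) * a) ^ 2 = (1 - t) ^ 2 * a ^ 2 := by ring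
    have e2 : (1 - t) ^ 2 ≤ 1 - t := by nlinarith
    have e3 := mul_le_mul_of_nonneg_right e2 (sq_nonneg a)
    rw [e1]
    linarith [h3'.1]
  have h6 : r ≤ (1 + t) * a := by
    refine le_of_sq_le_sq ?_ (by positivity)
    have e1 : ((1 + t) * a) ^ 2 = (1 + t) ^ 2 * a ^ 2 := by ring
    have e2 : 1 + t ≤ (1 + t) ^ 2 := by nlinarith
    have e3 := mul_le_mul_of_nonneg_right e2 (sq_nonneg a)
    rw [e1]
    linarith [h3'.2]
  have h7 : nn ((2 * s) • dif z) = 2 * a := by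
    rw [nn_smul, abs_mul, D.s1, ha]
    norm_num
  have h8 := abs_le.1 ((abs_nn_sub_le (Dv e (r2 g) z) ((2 * s) • dif z)).trans h4)
  rw [h7] at h8
  refine ⟨⟨h5, h6⟩, ?_⟩
  rw [nn_smul, abs_of_pos (by positivity)]
  constructor
  · rw [le_inv_mul_iff₀ (by positivity)]
    have e1 : 2 * r * (1 - 2 * t) ≤ 2 * ((1 + t) * a) * (1 - 2 * t) := by
      have : 0 ≤ 1 - 2 * t := by linarith
      gcongr
    have e2 : 2 * ((1 + t) * a) * (1 - 2 * t) ≤ (2 - t) * a := by nlinarith [sq_nonneg t]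
    linarith [h8.1]
  · rw [inv_mul_le_iff₀ (by positivity)]
    have e1 : 2 * ((1 - t) * a) * (1 + 3 * t) ≤ 2 * r * (1 + 3 * t) := by gcongr
    have e2 : (2 + t) * a ≤ 2 * ((1 - t) * a) * (1 + 3 * t) := by
      have : 0 ≤ a * t * (3 - 6 * t) := mul_nonneg (mul_nonneg a0 t0) (by linarith)
      nlinarith
    linarith [h8.2]

/-! ### The gradients -/

theorem r2_sm (hg : ∀ i j, ContDiff ℝ ∞ fun x => gi d.s₁ x i j) : ContDiff ℝ ∞ d.r2 :=
  contDiff_const.mul (H867.EP.rq_sm hg)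

/-- The gradient of the weight. -/
theorem W_vec (e : Fin n → VV n) (h : PkOk q d)
    (hg : ∀ i j, ContDiff ℝ ∞ fun x => gi d.s₁ x i j)
    (hl1 : d.l z.1 < d.l₀ q + 5 / 2 * q.R) (hl2 : d.l z.2 < d.l₀ q + 5 / 2 * q.R) (hR : 0 < q.R)
    (he : 0 < q.e₁) (hr : 0 < d.r2 z) :
    Dv e (d.W q) z = (deriv d.Φ (d.u q z) + GG q d z) • Dv e (d.u q) z +
      (GG q d z * prL q.e₁ (rr d z) + D01 q d z) • ((2 * √(d.r2 z))⁻¹ • Dv e d.r2 z) := by
  have h1 : DifferentiableAt ℝ d.r2 z := ((r2_sm hg).differentiable (by simp)) z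
  have h2 : DifferentiableAt ℝ (d.u q) z := ((h.u_sm hg).differentiable (by simp)) z
  funext i
  have h3 := hv_W (w := e i) h hl1 hl2 hR he hr (r2_sm hg).continuous (ρ := Dv e d.r2 z i)
    (υ := Dv e (d.u q) z i) ⟨h1, rfl⟩ ⟨h2, rfl⟩
  have h4 : Dv e (d.W q) z i = _ := h3.e
  rw [h4]
  simp only [Pi.add_apply, Pi.smul_apply, smul_eq_mul]
  unfold rr
  ring

/-- The gradient of `u`. -/
theorem u_vec (D : Dir e s pt) (h : PkOk q d)
    (hg : ∀ i j, ContDiff ℝ ∞ fun x => gi d.s₁ x i j) :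
    Dv e (d.u q) z = (fun i => pd i d.l (pt z)) +
      ((2 * deriv d.χ (d.r2 z) * d.μc q (d.l (mid z))) • Dv e d.r2 z +
      (d.χ (d.r2 z) * deriv (d.μc q) (d.l (mid z))) • fun i => pd i d.l (mid z)) := by
  have h1 : DifferentiableAt ℝ d.r2 z := ((r2_sm hg).differentiable (by simp)) z
  funext i
  have h3 := hv_u D h.μ_sm h.χs h.l_sm (i := i) (ρ := Dv e d.r2 z i) ⟨h1, rfl⟩
  have h4 : Dv e (d.u q) z i = _ := h3.e
  rw [h4]
  simp only [Pi.add_apply, Pi.smul_apply, smul_eq_mul]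
  ring

/-! ### The level -/

/-- `|w| ≤ 101/100` below `l₀ + 3 R`. -/
theorem w_le (I : InfC q) (h : PkOk q d) {x : V n} (hx : d.l x ≤ d.l₀ q + 3 * q.R) :
    √(HY.sq (wR n q.σ q.R x)) ≤ 101 / 100 := by
  have h1 := (H404.INF.gl_le I h (a := 3)).2 hx
  have h2 := (lvG I h).g.t_le I.σ0 (by norm_num) h1
  have := I.σ1
  have h3 : √(HY.sq (wR n q.σ q.R x)) ≤ 1 + q.σ * 3 := h2
  linarith

theorem w_mid (x y : V n) (hx : √(HY.sq (wR n q.σ q.R x)) ≤ 101 / 100)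
    (hy : √(HY.sq (wR n q.σ q.R y)) ≤ 101 / 100) :
    √(HY.sq (wR n q.σ q.R ((1 / 2 : ℝ) • (x + y)))) ≤ 101 / 100 := by
  have h1 := H932.EP.wR_comb (n := n) q.σ q.R x y (a := 1 / 2) (b := 1 / 2) (by norm_num)
  rw [smul_add, h1]
  refine (en_add _ _).trans ?_
  rw [en_smul, en_smul, abs_of_pos (by norm_num : (0 : ℝ) < 1 / 2)]
  linarith

theorem l_lip' (I : InfC q) (h : PkOk q d) {x y : V n}
    (hx : √(HY.sq (wR n q.σ q.R x)) ≤ 101 / 100) (hy : √(HY.sq (wR n q.σ q.R y)) ≤ 101 / 100) :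
    |d.l x - d.l y| ≤ 101 / 100 * √(HY.sq (x - y)) := by
  have L := lvG I h
  have hR := L.R0
  have h1 := L.g.lip (q.R⁻¹ • x) (q.R⁻¹ • y) hx hy
  rw [← smul_sub, en_smul, abs_of_pos (inv_pos.2 hR)] at h1
  rw [L.eq x, L.eq y, add_sub_add_left_eq_sub, ← mul_sub, abs_mul, abs_of_pos hR]
  calc _ ≤ q.R * (101 / 100 * (q.R⁻¹ * √(HY.sq (x - y)))) := by gcongr
    _ = _ := by field_simp

theorem sq_comm' (x y : V n) : HY.sq (x - y) = HY.sq (y - x) := by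
  unfold HY.sq
  refine Finset.sum_congr rfl fun i _ => ?_
  simp only [Pi.sub_apply]
  ring

/-- The gradient of the level. -/
theorem nn_grad_le (I : InfC q) (h : PkOk q d) {x : V n} (hx : d.l x ≤ d.l₀ q + 3 * q.R) :
    nn (fun i => pd i d.l x) ≤ 1 + 5 * q.σ := by
  have hl := h.lev.lit
  have h3 := hx
  have hs := I.σ0
  refine nn_le_of_sq (by linarith) ?_
  have h4 : ∑ i, pd i d.l x ^ 2 ≤ 1 + 10 * q.σ := by
    rw [hl] at h3 ⊢
    refine H475.grad_levG_le' I.σ0 I.σ1 I.R0 (h3.trans ?_)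
    have hR := I.R0
    have : d.l₀ q = H475.lam0 q.R d.kap d.Gs := rfl
    rw [this]
    linarith
  have h5 : dd (fun i => pd i d.l x) (fun i => pd i d.l x) = ∑ i, pd i d.l x ^ 2 := by
    unfold dd
    exact Finset.sum_congr rfl fun i _ => (pow_two _).symm
  rw [h5]
  nlinarith

theorem le_nn_grad (I : InfC q) (h : PkOk q d) {x : V n} (hx : 2 / 25 ≤ √(HY.sq (wR n q.σ q.R x))) :
    24 / 25 ≤ nn (fun i => pd i d.l x) := by
  have h1 : (24 / 25) ^ 2 ≤ ∑ i, pd i d.l x ^ 2 := by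
    rw [h.lev.lit]
    exact H475.grad_levG_ge I.σ0 I.σ1 I.R0 hx
  have h5 : dd (fun i => pd i d.l x) (fun i => pd i d.l x) = ∑ i, pd i d.l x ^ 2 := by
    unfold dd
    exact Finset.sum_congr rfl fun i _ => (pow_two _).symm
  rw [← h5, ← nn_sq] at h1
  exact le_of_sq_le_sq h1 (nn_nonneg _)

theorem le_nn_grad' (T : H238.C.Th q) (h : PkOk q d) {x : V n} (hx : x ∈ H238.C.Gp q d) :
    1 - 2 * q.σ ≤ nn (fun i => pd i d.l x) := by
  have h1 := (H238.C.Gp_sq h T hx).1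
  have h5 : dd (fun i => pd i d.l x) (fun i => pd i d.l x) = HY.sq (H238.C.ww n q x) := by
    unfold dd HY.sq
    refine Finset.sum_congr rfl fun i _ => ?_
    show pd i d.l x * pd i d.l x = _
    rw [H238.C.Gp_pd h T hx i]
    ring
  rw [← h5, ← nn_sq] at h1
  refine le_of_sq_le_sq (le_trans ?_ h1) (nn_nonneg _)
  have := T.σ0
  have := T.σ1
  nlinarith

end Vale.Agent.P088.R2.H912.A
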