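import Vale.Agent.P088.R2.H912.A.WxN
import Vale.Agent.P088.R2.H281.EP.W123

/-!
# P088, stage 3, zone A: lower bounds of the gradient of the weight at a point
-/

open Set Filter
open scoped ContDiff Topology

noncomputable section

namespace Vale.Agent.P088.R2.H912.A

open Vale.Agent.P088.LR Vale.Agent.P088.R2.H464.Cu Vale.Agent.P088.R2.H230.W
open Vale.Agent.P088.HY hiding dd
open Vale.Agent.P088.R2.H31.EP hiding r2
open Vale.Agent.P088.R2.H31.EP (r2)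
open Vale.Agent.P088.R2.H475 (wR en_add en_smul en_sub sq0 en_wR_le th1)
open Vale.Agent.P088.R2.H404.INF (InfC lvG)
open Vale.Agent.P088.R2.H313.Mu (sw)
open Vale.Agent.P088.R2.H932.EP (cSt)

variable {n : ℕ} {e : Fin n → VV n} {s : ℝ} {pt : VV n → V n} {z w : VV n} {q : Cst} {d : Pk n}

/-! ### The profile -/

theorem S_bd {e₁ : ℝ} (he : 0 < e₁) (b : ℝ) : ∃ M : ℝ, 1 ≤ M ∧ ∀ s ∈ Icc 0 b,
    |deriv (prS e₁) s| ≤ M ∧ |deriv (deriv (prS e₁)) s| ≤ M := by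
  have p := H281.EP.pp_ok he
  have s1 : ContDiff ℝ ∞ (deriv (prS e₁)) := (contDiff_infty_iff_deriv.1 p.contDiff_Ph).2
  have s2 : ContDiff ℝ ∞ (deriv (deriv (prS e₁))) := (contDiff_infty_iff_deriv.1 s1).2
  obtain ⟨M1, h1⟩ := (isCompact_Icc (a := (0 : ℝ)) (b := b)).exists_bound_of_continuousOn
    s1.continuous.continuousOn
  obtain ⟨M2, h2⟩ := (isCompact_Icc (a := (0 : ℝ)) (b := b)).exists_bound_of_continuousOn
    s2.continuous.continuousOn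
  refine ⟨max 1 (max M1 M2), le_max_left _ _, fun s hs => ⟨?_, ?_⟩⟩
  · exact (h1 s hs).trans ((le_max_left _ _).trans (le_max_right _ _))
  · exact (h2 s hs).trans ((le_max_right _ _).trans (le_max_right _ _))

/-- The bound of `S'`, `S''` for `r ≤ 4 p₁`. -/
def MS (q : Cst) : ℝ := if h : 0 < q.e₁ then (S_bd h ((4 * q.p₁) ^ 2)).choose else 1

theorem MS_spec (he : 0 < q.e₁) : 1 ≤ MS q ∧ ∀ s ∈ Icc 0 ((4 * q.p₁) ^ 2),
    |deriv (prS q.e₁) s| ≤ MS q ∧ |deriv (deriv (prS q.e₁)) s| ≤ MS q := by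
  unfold MS
  rw [dif_pos he]
  exact (S_bd he _).choose_spec

theorem S_lip (he : 0 < q.e₁) {s t : ℝ} (hs : s ∈ Icc 0 ((4 * q.p₁) ^ 2))
    (ht : t ∈ Icc 0 ((4 * q.p₁) ^ 2)) : |prS q.e₁ s - prS q.e₁ t| ≤ MS q * |s - t| ∧
      |deriv (prS q.e₁) s - deriv (prS q.e₁) t| ≤ MS q * |s - t| := by
  have p := H281.EP.pp_ok he
  have s1 : ContDiff ℝ ∞ (deriv (prS q.e₁)) := (contDiff_infty_iff_deriv.1 p.contDiff_Ph).2
  have h := (MS_spec he).2
  exact ⟨(convex_Icc (0 : ℝ) _).norm_image_sub_le_of_norm_deriv_le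
    (fun x _ => (p.contDiff_Ph.differentiable (by simp)) x) (fun x hx => (h x hx).1) ht hs,
    (convex_Icc (0 : ℝ) _).norm_image_sub_le_of_norm_deriv_le
    (fun x _ => (s1.differentiable (by simp)) x) (fun x hx => (h x hx).2) ht hs⟩

/-! ### The correction -/

theorem muc_lo (h : PkOk q d) {s : ℝ} (hs : s < sw q.Cs q.M₀) :
    d.μc q s = 0 ∧ deriv (d.μc q) s = 0 := by
  have h1 : ∀ s ≤ sw q.Cs q.M₀, d.μc q s = 0 := fun s hs => by
    unfold Pk.μc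
    rw [h.ph.isμ.ze s hs, zero_mul]
  refine ⟨h1 s hs.le, ?_⟩
  have h2 : d.μc q =ᶠ[𝓝 s] fun _ => 0 := by
    filter_upwards [gt_mem_nhds hs] with t ht using h1 t ht.le
  rw [h2.deriv_eq]
  simp

theorem muc_hi (hR : 0 < q.R) {s : ℝ} (hs : d.l₀ q + q.R < s) :
    d.μc q s = 0 ∧ deriv (d.μc q) s = 0 := by
  have h1 : ∀ s, d.l₀ q + q.R ≤ s → d.μc q s = 0 := fun s hs => by
    unfold Pk.μc
    have h2 : 1 ≤ 2 * ((s - d.l₀ q) / q.R) - 1 := by
      have : 1 ≤ (s - d.l₀ q) / q.R := by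
        rw [le_div_iff₀ hR]
        linarith
      linarith
    rw [Real.smoothTransition.one_of_one_le h2]
    ring
  refine ⟨h1 s hs.le, ?_⟩
  have h2 : d.μc q =ᶠ[𝓝 s] fun _ => 0 := by
    filter_upwards [lt_mem_nhds hs] with t ht using h1 t ht.le
  rw [h2.deriv_eq]
  simp

theorem muc_d (h : PkOk q d) (hR : 0 < q.R) (s : ℝ) :
    |deriv (d.μc q) s| ≤ 1 / 8 + cSt / (4 * q.R) := by
  have h1 : HasDerivAt d.μ (deriv d.μ s) s :=
    ((h.ph.isμ.sm.differentiable (by simp)) s).hasDerivAt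
  have h2 : HasDerivAt (fun s => 2 * ((s - d.l₀ q) / q.R) - 1) (2 * (1 / q.R)) s :=
    ((((hasDerivAt_id s).sub_const _).div_const _).const_mul 2).sub_const _
  have hst : ContDiff ℝ ∞ Real.smoothTransition := Real.smoothTransition.contDiff
  have h3 := ((hst.differentiable (by simp)) (2 * ((s - d.l₀ q) / q.R) - 1)).hasDerivAt
  have h4 : HasDerivAt (fun s => Real.smoothTransition (2 * ((s - d.l₀ q) / q.R) - 1))
      (deriv Real.smoothTransition (2 * ((s - d.l₀ q) / q.R) - 1) * (2 * (1 / q.R))) s :=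
    HasDerivAt.comp (h₂ := Real.smoothTransition) s h3 h2
  have h5 : HasDerivAt (d.μc q) (deriv d.μ s * (1 - Real.smoothTransition
      (2 * ((s - d.l₀ q) / q.R) - 1)) + d.μ s * -(deriv Real.smoothTransition
      (2 * ((s - d.l₀ q) / q.R) - 1) * (2 * (1 / q.R)))) s := h1.mul (h4.const_sub 1)
  rw [h5.deriv]
  have b1 : |deriv d.μ s| ≤ 1 / 8 := by
    have a1 := h.ph.isμ.d1 s
    have a2 := h.ph.isμ.d2 s
    have a3 := h.ph.b0
    rw [abs_le]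
    constructor <;> linarith
  have b2 := h.ph.μb s
  have b3 := (H932.EP.j1_st (2 * ((s - d.l₀ q) / q.R) - 1)).e1
  have b4 := Real.smoothTransition.nonneg (2 * ((s - d.l₀ q) / q.R) - 1)
  have b5 := Real.smoothTransition.le_one (2 * ((s - d.l₀ q) / q.R) - 1)
  refine (abs_add_le _ _).trans (add_le_add ?_ ?_)
  · rw [abs_mul]
    have : |1 - Real.smoothTransition (2 * ((s - d.l₀ q) / q.R) - 1)| ≤ 1 := by
      rw [abs_le]
      constructor <;> linarith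
    calc _ ≤ 1 / 8 * 1 := mul_le_mul b1 this (abs_nonneg _) (by norm_num)
      _ = _ := by ring
  · rw [abs_mul, abs_neg, abs_mul, abs_of_pos (by positivity : 0 < 2 * (1 / q.R))]
    calc _ ≤ 1 / 8 * (cSt * (2 * (1 / q.R))) := by
          refine mul_le_mul b2 ?_ (by positivity) (by norm_num)
          exact mul_le_mul_of_nonneg_right b3 (by positivity)
      _ = _ := by ring

theorem chi_d (h : PkOk q d) (s : ℝ) : |deriv d.χ s| ≤ cSt / 3 := by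
  rw [h.eχ]
  have h2 : HasDerivAt (fun s : ℝ => (4 - s) / 3) (-1 / 3) s :=
    ((hasDerivAt_id s).const_sub 4).div_const 3
  have hst : ContDiff ℝ ∞ Real.smoothTransition := Real.smoothTransition.contDiff
  have h3 := ((hst.differentiable (by simp)) ((4 - s) / 3)).hasDerivAt
  have h4 : HasDerivAt chi0 (deriv Real.smoothTransition ((4 - s) / 3) * (-1 / 3)) s :=
    HasDerivAt.comp (h₂ := Real.smoothTransition) s h3 h2
  rw [h4.deriv, abs_mul]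
  have b3 := (H932.EP.j1_st ((4 - s) / 3)).e1
  have : |(-1 / 3 : ℝ)| = 1 / 3 := by norm_num [abs_div]
  rw [this]
  linarith

theorem chi_hi (h : PkOk q d) {s : ℝ} (hs : 4 < s) : d.χ s = 0 ∧ deriv d.χ s = 0 := by
  refine ⟨h.χ0 s hs.le, ?_⟩
  have h2 : d.χ =ᶠ[𝓝 s] fun _ => 0 := by
    filter_upwards [lt_mem_nhds hs] with t ht using h.χ0 t ht.le
  rw [h2.deriv_eq]
  simp

/-! ### Thresholds -/

/-- The precision of the metric. -/
def tq (n : ℕ) (q : Cst) : ℝ := 3 * (n : ℝ) ^ 3 * (Cg n * q.ε)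

/-- The thresholds of the row A-WX. -/
structure Tw (n : ℕ) (q : Cst) : Prop where
  T : H238.C.Th q
  I : InfC q
  rad : H509.Rad.Ok q.e₁ rp
  rT0 : 0 < q.rT
  rT1 : q.rT ≤ 1
  rT2 : q.rT ≤ q.e₁ / 2
  ε0 : 0 < q.ε
  ε1 : q.ε ≤ eg n
  ε2 : n * q.ε ≤ 1 / 2
  t1 : tq n q ≤ 1 / 12
  t2 : 120 * tq n q ≤ q.e₁
  t3 : 600 * (MS q * tq n q * (4 * q.p₁) ^ 3) ≤ q.rT * prS q.e₁ (q.c₀ ^ 2 / 16)
  σe : 80 * q.σ ≤ q.e₁
  es0 : 0 < q.es
  es1 : 40 * q.es ≤ q.e₁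
  r1 : 4 * q.p₁ < q.r₁ * Real.exp (-1)
  Cs1 : 1 ≤ q.Cs
  act : 40 * ((1 + q.ph.CT) * q.ph.Cb) ≤ q.Cs * prS q.e₁ (q.c₀ ^ 2 / 16)
  mu : 400 * cSt * Real.log q.M₀ ^ (-(1 / 2) : ℝ) ≤ 1
  R1 : 10 * cSt ≤ q.R
  dp1 : 10 * (H281.EP.CP q.e₁ + 1) ≤ q.R
  dp2 : 16 * (prL q.e₁ (q.c₀ / 2) + 1) ≤ Real.exp (q.R / 4)

/-- The conditions of zone A which are used. -/
structure OB (q : Cst) (d : Pk n) (z : VV n) : Prop where
  r : (q.c₀ / 2) ^ 2 < d.r2 z
  a : qq z < (q.κ₁ * q.R) ^ 2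
  l1 : d.l z.1 < d.l₀ q + 5 / 2 * q.R
  l2 : d.l z.2 < d.l₀ q + 5 / 2 * q.R
  u : -(17 / 10 * (q.R / q.σ)) < d.l z.1 + d.l z.2

theorem Tw.p1 (T : Tw n q) : 400 ≤ q.p₁ := by
  have r := T.rad
  have h1 := r.gr_le (t := 1 / 4) (by norm_num)
  have h2 := r.one_le (t := 1 / 4) (by norm_num)
  have h3 := r.num.trans (r.big h2 (r.L_le le_rfl h2 h1))
  have h4 : 400 ≤ 4 / q.e₁ := by
    rw [le_div_iff₀ r.e0]
    linarith [r.e1]
  exact h4.trans h3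

/-! ### The geometry at a point -/

theorem en_dif (z : VV n) : √(HY.sq (z.1 - z.2)) = nn (dif z) := by
  have h : HY.sq (z.1 - z.2) = nn (dif z) ^ 2 := by rw [nn_dif]; rfl
  rw [h, Real.sqrt_sq (nn_nonneg _)]

theorem n_pos (hr : 0 < d.r2 z) : 1 ≤ n := by
  rcases Nat.eq_zero_or_pos n with rfl | hn
  · exfalso
    have : d.r2 z = 0 := by simp [Pk.r2, r2, rq, bf]
    linarith
  · exact hn

/-- Not too deep. -/
theorem w_ge (T : Tw n q) (h : PkOk q d) {x y : V n}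
    (hx : √(HY.sq (wR n q.σ q.R x)) ≤ 101 / 100) (hy : √(HY.sq (wR n q.σ q.R y)) ≤ 101 / 100)
    (hxy : √(HY.sq (x - y)) ≤ q.κ₁ * q.R) (hu : -(17 / 10 * (q.R / q.σ)) < d.l x + d.l y) :
    2 / 25 ≤ √(HY.sq (wR n q.σ q.R x)) := by
  by_contra hc
  have I := T.I
  have L := lvG I h
  have hR := L.R0
  have hσ := L.σ0
  have h1 : H475.gg n q.σ (q.R⁻¹ • x) ≤ -(9 / 10) * q.σ⁻¹ := L.g.deep (q.R⁻¹ • x) (not_le.1 hc).le
  have h2 : d.l x ≤ d.l₀ q - 9 / 10 * (q.R / q.σ) := by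
    rw [L.eq x]
    have h3 := mul_le_mul_of_nonneg_left h1 hR.le
    have e1 : q.R * (-(9 / 10) * q.σ⁻¹) = -(9 / 10 * (q.R / q.σ)) := by
      field_simp
    linarith
  have h4 := (abs_le.1 (l_lip' I h hx hy)).1
  have h5 : q.κ₁ * q.R ≤ 1 / 50 * q.R := mul_le_mul_of_nonneg_right I.κ1 hR.le
  have h6 : 5000 * q.R ≤ q.R / q.σ := by
    rw [le_div_iff₀ hσ]
    have := L.σ1
    nlinarith
  have h7 := L.l1
  linarith

/-- The facts at a point. -/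
structure Pt (e : Fin n → VV n) (s : ℝ) (q : Cst) (d : Pk n) (z : VV n) : Prop where
  n1 : 1 ≤ n
  r0 : 0 < d.r2 z
  rc : q.c₀ / 2 < rr d z
  a1 : nn (dif z) ≤ q.κ₁ * q.R
  r1 : (1 - tq n q) * nn (dif z) ≤ rr d z
  r2 : rr d z ≤ (1 + tq n q) * nn (dif z)
  b1 : 1 - 2 * tq n q ≤ nn ((2 * √(d.r2 z))⁻¹ • Dv e d.r2 z)
  b2 : nn ((2 * √(d.r2 z))⁻¹ • Dv e d.r2 z) ≤ 1 + 3 * tq n q
  b3 : |d.r2 z - nn (dif z) ^ 2| ≤ tq n q * nn (dif z) ^ 2
  b4 : nn (Dv e d.r2 z - (2 * s) • dif z) ≤ tq n q * nn (dif z)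
  v1 : 2 / 25 ≤ √(HY.sq (wR n q.σ q.R z.1))
  v2 : 2 / 25 ≤ √(HY.sq (wR n q.σ q.R z.2))
  m0 : |d.l z.1 - d.l z.2| ≤ 101 / 100 * nn (dif z)
  m1 : |d.l (mid z) - d.l z.1| ≤ 101 / 200 * nn (dif z)
  m2 : |d.l (mid z) - d.l z.2| ≤ 101 / 200 * nn (dif z)

theorem tq_nonneg (T : Tw n q) : 0 ≤ tq n q := by
  have := T.ε0
  have := Cg_one n
  unfold tq
  positivity

theorem pt_ok (D : Dir e s pt) (T : Tw n q) (h : PkOk q d) (O : OB q d z) : Pt e s q d z := by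
  have hR1 := T.I.R1
  have hR := T.I.R0
  have c0 := T.T.c0
  have r0 : 0 < d.r2 z := lt_of_le_of_lt (sq_nonneg _) O.r
  have n1 := n_pos r0
  have a1 : nn (dif z) ≤ q.κ₁ * q.R := by
    have h1 := O.a
    rw [← nn_dif] at h1
    exact le_of_sq_le_sq h1.le (mul_nonneg T.I.κ0.le hR.le)
  have hC := Cg_one n
  have a2 : Cg n * (q.ε / q.R) * nn (dif z) ≤ Cg n * q.ε := by
    have h1 : q.ε / q.R * nn (dif z) ≤ q.ε := by
      have h2 : nn (dif z) ≤ q.R := a1.trans (by nlinarith [T.I.κ1])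
      calc q.ε / q.R * nn (dif z) ≤ q.ε / q.R * q.R :=
            mul_le_mul_of_nonneg_left h2 (div_nonneg T.ε0.le hR.le)
        _ = q.ε := by field_simp
    calc Cg n * (q.ε / q.R) * nn (dif z) = Cg n * (q.ε / q.R * nn (dif z)) := by ring
      _ ≤ _ := mul_le_mul_of_nonneg_left h1 (by linarith)
  have G := nr_g h hR1 T.ε0.le T.ε1
  have ε0 : 0 ≤ Cg n * q.ε := mul_nonneg (by linarith) T.ε0.le
  have h3 := rx_bd D G ε0 a2 (t := tq n q) le_rfl (by linarith [T.t1]) n1 r0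
  have w1 := w_le T.I h (x := z.1) (by linarith [O.l1])
  have w2 := w_le T.I h (x := z.2) (by linarith [O.l2])
  have w3 := w_mid (q := q) z.1 z.2 w1 w2
  have e2 : HY.sq (z.2 - z.1) = HY.sq (z.1 - z.2) := sq_comm' _ _
  have hd : ∀ c : ℝ, √(HY.sq (c • (z.1 - z.2))) = |c| * nn (dif z) := fun c => by
    rw [en_smul, en_dif]
  have e3 : mid z - z.1 = (-(1 / 2) : ℝ) • (z.1 - z.2) := by
    unfold mid; module
  have e4 : mid z - z.2 = (1 / 2 : ℝ) • (z.1 - z.2) := by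
    unfold mid; module
  have k1 := l_lip' T.I h (x := mid z) (y := z.1) w3 w1
  have k2 := l_lip' T.I h (x := mid z) (y := z.2) w3 w2
  rw [e3, hd] at k1
  rw [e4, hd] at k2
  have k3 := l_lip' T.I h (x := z.1) (y := z.2) w1 w2
  rw [en_dif] at k3
  have k4 : |(-(1 / 2) : ℝ)| = 1 / 2 := by norm_num
  have k5 : |(1 / 2 : ℝ)| = 1 / 2 := by norm_num
  rw [k4] at k1
  rw [k5] at k2
  refine ⟨n1, r0, ?_, a1, h3.1.1, h3.1.2, h3.2.1, h3.2.2, ?_, ?_, w_ge T h w1 w2 ?_ O.u,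
    w_ge T h w2 w1 ?_ ?_, k3, by linarith, by linarith⟩
  · have h4 := O.r
    rw [← rr_sq r0] at h4
    exact lt_of_pow_lt_pow_left₀ 2 (rr_pos r0).le h4
  · have h1 := r2_sub G (mem_univ _) ε0 (z := z)
    refine h1.trans ?_
    have n2 : (1 : ℝ) ≤ n := by exact_mod_cast n1
    have h4 : (n : ℝ) ^ 2 ≤ 3 * (n : ℝ) ^ 3 := by nlinarith [sq_nonneg (n : ℝ)]
    calc (n : ℝ) ^ 2 * (Cg n * q.ε * nn (dif z) ^ 2) = (n : ℝ) ^ 2 * (Cg n * q.ε) *
          nn (dif z) ^ 2 := by ring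
      _ ≤ _ := mul_le_mul_of_nonneg_right (mul_le_mul_of_nonneg_right h4 ε0) (sq_nonneg _)
  · refine (Dv_r2 D isOpen_univ G (mem_univ _) ε0 a2).trans (le_of_eq ?_)
    unfold tq
    ring
  · rw [en_dif]; exact a1
  · rw [e2, en_dif]; exact a1
  · linarith [O.u]

/-- Both points are in the explicit region. -/
theorem gp_ok (T : Tw n q) (O : OB q d z) (P : Pt e s q d z)
    (hu : -(q.R / 2) ≤ d.u0 z) : z.1 ∈ H238.C.Gp q d ∧ z.2 ∈ H238.C.Gp q d := by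
  have hR := T.I.R0
  have h1 := abs_le.1 P.m0
  have h2 := P.a1
  have h3 : q.κ₁ * q.R ≤ 1 / 50 * q.R := mul_le_mul_of_nonneg_right T.I.κ1 hR.le
  have h4 : -(q.R / 2) ≤ d.l z.1 + d.l z.2 := hu
  refine ⟨⟨by linarith [h1.1], O.l1⟩, by linarith [h1.2], O.l2⟩

/-! ### `u` -/

theorem u_sub (h : PkOk q d) (z : VV n) : |d.u q z - d.u0 z| ≤ 1 / 4 := by
  have e1 : d.u q z - d.u0 z = 2 * (d.χ (d.r2 z) * d.μc q (d.l (mid z))) := by
    show (d.l z.1 + d.l z.2 + 2 * (d.χ (d.r2 z) * d.μc q (d.l (mid z)))) - (d.l z.1 + d.l z.2) = _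
    ring
  have h1 := h.χb (d.r2 z)
  have h2 := (d.μc_abs q (d.l (mid z))).trans (h.ph.μb _)
  rw [e1, abs_mul, abs_mul, abs_of_nonneg h1.1, abs_of_pos (by norm_num : (0 : ℝ) < 2)]
  have := mul_le_mul h1.2 h2 (abs_nonneg _) (by norm_num)
  linarith

/-- The correction is not active at `z`. -/
def Ina (q : Cst) (d : Pk n) (z : VV n) : Prop :=
  (d.χ (d.r2 z) = 0 ∧ deriv d.χ (d.r2 z) = 0) ∨
    (d.μc q (d.l (mid z)) = 0 ∧ deriv (d.μc q) (d.l (mid z)) = 0)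

theorem u_ina (hi : Ina q d z) : d.u q z = d.u0 z := by
  show d.l z.1 + d.l z.2 + 2 * (d.χ (d.r2 z) * d.μc q (d.l (mid z))) = d.l z.1 + d.l z.2
  rcases hi with h | h
  · rw [h.1]; ring
  · rw [h.1]; ring

theorem ux_ina (D : Dir e s pt) (h : PkOk q d)
    (hg : ∀ i j, ContDiff ℝ ∞ fun x => gi d.s₁ x i j) (hi : Ina q d z) :
    Dv e (d.u q) z = fun i => pd i d.l (pt z) := by
  rw [u_vec D h hg]
  rcases hi with h | h
  · rw [h.1, h.2]; simp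
  · rw [h.1, h.2]; simp

/-! ### The stiff part -/

theorem GG_pos (h : PkOk q d) (hr : 0 < d.r2 z) : 0 < GG q d z := h.sl.G_pos _ (rr_pos hr)

theorem D01_le (h : PkOk q d) (hr : 0 < d.r2 z) : |D01 q d z| ≤ q.es * GG q d z :=
  h.sl.mu _ (rr_pos hr)

theorem S_pos (he : 0 < q.e₁) {s : ℝ} (hs : 0 < s) : 0 < prS q.e₁ s := (H281.EP.pp_ok he).S_pos hs

theorem exp_ff (he : 0 < q.e₁) (hr : 0 < d.r2 z) :
    Real.exp (ff q d z) = Real.exp (d.u q z) * prS q.e₁ (d.r2 z) := by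
  unfold ff
  rw [Real.exp_add, Real.exp_log (S_pos he hr)]

theorem GG_inn (h : PkOk q d) (he : 0 < q.e₁) (hr : 0 < d.r2 z)
    (hi : rr d z < q.r₁ * Real.exp (-1)) :
    GG q d z = Real.exp (d.u q z) * prS q.e₁ (d.r2 z) ∧ D01 q d z = 0 := by
  constructor
  · unfold GG
    rw [h.sl.inn 1 0 _ (rr_pos hr) hi, if_pos rfl]
    exact exp_ff he hr
  · unfold D01
    rw [h.sl.inn 0 1 _ (rr_pos hr) hi, if_neg (by norm_num)]

theorem L_pos (he : 0 < q.e₁) (r : ℝ) : 0 < prL q.e₁ r := (H281.EP.pp_ok he).Lf_pos r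

theorem L_le (he : 0 < q.e₁) {r r' : ℝ} (hr : 0 < r) (h : r ≤ r') :
    prL q.e₁ r' ≤ prL q.e₁ r := (H281.EP.pp_ok he).antitone_Lf hr (hr.trans_le h) h

theorem two_le_L (he : 0 < q.e₁) {r : ℝ} (hr : 0 < r) (h : r ≤ 20) : 2 ≤ prL q.e₁ r := by
  unfold prL
  rw [(H281.EP.pp_ok he).Lf_eq hr (by unfold rp; exact h)]
  exact H644.le_Lz (by norm_num) hr

/-- The stiff part is exponentially small at the deep points. -/
theorem GG_deep (T : Tw n q) (h : PkOk q d) (P : Pt e s q d z) (hu : d.u0 z < -(q.R / 2)) :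
    GG q d z ≤ 2 * Real.exp (-(q.R / 4)) := by
  have he := T.rad.e0
  have hR := T.I.R0
  have h1 := (abs_le.1 (u_sub h z)).2
  have h2 := H281.EP.CP_spec he _ P.r0
  have h3 : √(d.r2 z) ≤ 1 / 25 * q.R := by
    have a1 := P.r2
    have a2 := P.a1
    have a3 : q.κ₁ * q.R ≤ 1 / 50 * q.R := mul_le_mul_of_nonneg_right T.I.κ1 hR.le
    have a4 := T.t1
    have a5 := tq_nonneg T
    have a6 := nn_nonneg (dif z)
    have a7 : (1 + tq n q) * nn (dif z) ≤ 2 * nn (dif z) :=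
      mul_le_mul_of_nonneg_right (by linarith) a6
    have a8 : √(d.r2 z) = rr d z := rfl
    linarith
  have h4 := h.sl.u_dist (ff q d z, rr d z) (rr_pos P.r0)
  have h5 := h.sl.G_u (ff q d z, rr d z) (rr_pos P.r0)
  have h6 := (abs_le.1 h4).2
  have h7 := (abs_le.1 h5).2
  have h8 : q.τ * (ff q d z, rr d z).2 / 2 ≤ rr d z / 2 := by
    have a1 : q.τ ≤ 1 := h.τ1.trans (by linarith [T.es1, T.rad.e1])
    have a2 := (rr_pos P.r0).le
    have a3 : q.τ * rr d z ≤ 1 * rr d z := mul_le_mul_of_nonneg_right a1 a2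
    show q.τ * rr d z / 2 ≤ _
    linarith
  have h9 : H768.W.uu q.τ q.r₁ (ff q d z, rr d z) ≤ -(q.R / 4) := by
    have a1 : (ff q d z, rr d z).1 = d.u q z + Real.log (prS q.e₁ (d.r2 z)) := rfl
    rw [a1] at h6
    have a2 : rr d z = √(d.r2 z) := rfl
    have a3 := T.dp1
    rw [a2] at h8 h6 ⊢
    linarith
  have h10 := Real.exp_le_exp.2 h9
  have h11 : q.es ≤ 1 := by linarith [T.es1, T.rad.e1]
  have h12 : GG q d z = q.D 1 0 (ff q d z, rr d z) := rfl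
  have h13 := Real.exp_pos (H768.W.uu q.τ q.r₁ (ff q d z, rr d z))
  rw [h12]
  have h14 : q.es * Real.exp (H768.W.uu q.τ q.r₁ (ff q d z, rr d z)) ≤
      1 * Real.exp (H768.W.uu q.τ q.r₁ (ff q d z, rr d z)) :=
    mul_le_mul_of_nonneg_right h11 h13.le
  linarith

end Vale.Agent.P088.R2.H912.A
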