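import Vale.Agent.P088.R2.H912.A.WxP

/-!
# P088, stage 3, zone A: the lower bound of the gradient of the weight at a point
-/

open Set Filter
open scoped ContDiff Topology

noncomputable section

namespace Vale.Agent.P088.R2.H912.A

open Vale.Agent.P088.LR Vale.Agent.P088.R2.H464.Cu Vale.Agent.P088.R2.H230.W
open Vale.Agent.P088.HY hiding dd
open Vale.Agent.P088.R2.H31.EP hiding r2
open Vale.Agent.P088.R2.H31.EP (r2)
open Vale.Agent.P088.R2.H475 (wR en_add en_smul en_sub sq0 en_wR_le th1)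
open Vale.Agent.P088.R2.H404.INF (InfC lvG)
open Vale.Agent.P088.R2.H313.Mu (sw)
open Vale.Agent.P088.R2.H932.EP (cSt)

variable {n : ℕ} {e : Fin n → VV n} {s : ℝ} {pt : VV n → V n} {z w : VV n} {q : Cst} {d : Pk n}

theorem N_one (T : Tw n q) (h : PkOk q d) (u : ℝ) : 1 ≤ deriv d.Φ u := T.T.M1.trans (h.N_ge u)

theorem sw_nonneg (T : Tw n q) : 0 ≤ sw q.Cs q.M₀ := by
  unfold sw
  have h1 : 1 ≤ q.Cs * q.M₀ := by nlinarith [T.Cs1, T.T.M1]
  have := Real.log_nonneg h1
  linarith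

theorem tq_small (T : Tw n q) : tq n q ≤ 1 / 12000 := by
  linarith [T.t2, T.rad.e1]

/-- The deep points. -/
theorem wx_pt_deep (D : Dir e s pt) (T : Tw n q) (h : PkOk q d) (O : OB q d z)
    (P : Pt e s q d z) (hpt : pt z = z.1 ∨ pt z = z.2) (hu : d.u0 z < -(q.R / 2)) :
    1 / 4 * (deriv d.Φ (d.u q z) + GG q d z) ≤ nn (Dv e (d.W q) z) := by
  have hg := h.gi_sm T.ε2
  have he := T.rad.e0
  have hR := T.I.R0
  have hW := W_vec e h hg O.l1 O.l2 hR he P.r0
  have N1 := N_one T h (d.u q z)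
  have G0 := GG_pos h P.r0
  have c0 := T.T.c0
  have G1 := GG_deep T h P hu
  have L0 := L_pos he (rr d z)
  have L1 := L_le he (by linarith : 0 < q.c₀ / 2) P.rc.le
  have t0 := tq_nonneg T
  have t1 := tq_small T
  refine wx_deep hW (by linarith) G0.le ?_ ?_
  · have h1 : |GG q d z * prL q.e₁ (rr d z) + D01 q d z| ≤
        GG q d z * (prL q.e₁ (q.c₀ / 2) + 1) := by
      refine (abs_add_le _ _).trans ?_
      rw [abs_of_pos (mul_pos G0 L0)]
      have h2 := D01_le h P.r0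
      have h3 : q.es * GG q d z ≤ 1 * GG q d z :=
        mul_le_mul_of_nonneg_right (by linarith [T.es1, T.rad.e1]) G0.le
      have h4 := mul_le_mul_of_nonneg_left L1 G0.le
      linarith
    have h2 : GG q d z * (prL q.e₁ (q.c₀ / 2) + 1) ≤ 1 / 8 := by
      have h3 : 0 < prL q.e₁ (q.c₀ / 2) + 1 := by linarith
      have h4 := mul_le_mul_of_nonneg_right G1 h3.le
      have h5 := mul_le_mul_of_nonneg_left T.dp2 (Real.exp_pos (-(q.R / 4))).le
      rw [← Real.exp_add, neg_add_cancel, Real.exp_zero] at h5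
      linarith
    have h3 := P.b2
    have h4 : 1 + 3 * tq n q ≤ 2 := by linarith
    calc _ ≤ 1 / 8 * 2 := mul_le_mul (h1.trans h2) (h3.trans h4) (nn_nonneg _) (by norm_num)
      _ ≤ _ := by linarith
  · have hi : Ina q d z := by
      refine Or.inr (muc_lo h ?_)
      have a1 := (abs_le.1 P.m1).2
      have a2 := (abs_le.1 P.m2).2
      have a3 := P.a1
      have a4 : q.κ₁ * q.R ≤ 1 / 50 * q.R := mul_le_mul_of_nonneg_right T.I.κ1 hR.le
      have a5 := sw_nonneg T
      have a6 : d.l z.1 + d.l z.2 < -(q.R / 2) := hu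
      linarith
    rw [ux_ina D h hg hi]
    have h1 : 24 / 25 ≤ nn (fun i => pd i d.l (pt z)) := by
      rcases hpt with h1 | h1
      · rw [h1]; exact le_nn_grad T.I h P.v1
      · rw [h1]; exact le_nn_grad T.I h P.v2
    linarith

/-- The points where the correction is active. -/
theorem wx_pt_act (D : Dir e s pt) (T : Tw n q) (h : PkOk q d) (O : OB q d z)
    (P : Pt e s q d z) (hpt : pt z = z.1 ∨ pt z = z.2) (hi : ¬Ina q d z) :
    1 / 4 * (deriv d.Φ (d.u q z) + GG q d z) ≤ nn (Dv e (d.W q) z) := by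
  have hg := h.gi_sm T.ε2
  have he := T.rad.e0
  have hR := T.I.R0
  have hW := W_vec e h hg O.l1 O.l2 hR he P.r0
  have N1 := N_one T h (d.u q z)
  have G0 := GG_pos h P.r0
  have c0 := T.T.c0
  have t0 := tq_nonneg T
  have t1 := tq_small T
  have hp1 := T.p1
  have hσ := T.T.σ0
  have hσ1 := T.T.σ1
  have hR1 := T.T.R1
  -- the radius
  have r4 : d.r2 z ≤ 4 := by
    by_contra hc
    exact hi (Or.inl (chi_hi h (not_le.1 hc)))
  have r2' : rr d z ≤ 2 := by
    refine le_of_sq_le_sq ?_ (by norm_num)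
    rw [rr_sq P.r0]
    linarith
  have a0 := nn_nonneg (dif z)
  have a1 : nn (dif z) ≤ 11 / 5 := by
    have := P.r1
    have h2 : 11 / 12 * nn (dif z) ≤ (1 - tq n q) * nn (dif z) :=
      mul_le_mul_of_nonneg_right (by linarith) a0
    linarith
  -- the level
  have s1 : sw q.Cs q.M₀ ≤ d.l (mid z) := by
    by_contra hc
    exact hi (Or.inr (muc_lo h (not_le.1 hc)))
  have s2 : d.l (mid z) ≤ d.l₀ q + q.R := by
    by_contra hc
    exact hi (Or.inr (muc_hi hR (not_le.1 hc)))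
  have s0 := sw_nonneg T
  have gm : mid z ∈ H238.C.Gp q d := ⟨by linarith, by linarith⟩
  have hd : ∀ c : ℝ, √(HY.sq (c • (z.1 - z.2))) = |c| * nn (dif z) := fun c => by
    rw [en_smul, en_dif]
  have e3 : z.1 - mid z = (1 / 2 : ℝ) • (z.1 - z.2) := by
    unfold mid; module
  have e4 : z.2 - mid z = (-(1 / 2) : ℝ) • (z.1 - z.2) := by
    unfold mid; module
  have th1' : th1 q.σ ≤ HY.sq (H238.C.ww n q z.1) := by
    refine H238.C.near_th h T.T gm ?_
    rw [e3, hd]
    have : |(1 / 2 : ℝ)| = 1 / 2 := by norm_num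
    rw [this]
    linarith
  have th2' : th1 q.σ ≤ HY.sq (H238.C.ww n q z.2) := by
    refine H238.C.near_th h T.T gm ?_
    rw [e4, hd]
    have : |(-(1 / 2) : ℝ)| = 1 / 2 := by norm_num
    rw [this]
    linarith
  have hm := H238.C.l_mid h T.T th1' th2' (H238.C.Gp_th h T.T gm)
  have hm' : d.l z.1 + d.l z.2 = 2 * d.l (mid z) + q.σ / (4 * q.R) * nn (dif z) ^ 2 := by
    rw [nn_dif]; exact hm
  have k0 : 0 ≤ q.σ / (4 * q.R) * nn (dif z) ^ 2 := by positivity
  have k1 : q.σ / (4 * q.R) * nn (dif z) ^ 2 ≤ 1 / 100 := by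
    have b1 : nn (dif z) ^ 2 ≤ 5 := by nlinarith
    have b2 : q.σ / (4 * q.R) ≤ 1 / 500 := by
      rw [div_le_iff₀ (by positivity)]
      linarith
    calc _ ≤ 1 / 500 * 5 := mul_le_mul b2 b1 (sq_nonneg _) (by norm_num)
      _ = _ := by norm_num
  have hu := abs_le.1 (u_sub h z)
  have hu0 : d.u0 z = d.l z.1 + d.l z.2 := rfl
  -- `N ≤ G / 20`
  have hN : deriv d.Φ (d.u q z) ≤ H238.C.N₁ q := by
    refine H238.C.N_le h T.T ?_
    unfold Pk.uth
    linarith [hu.2]
  have hri : rr d z < q.r₁ * Real.exp (-1) := by linarith [T.r1]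
  obtain ⟨G1, D1⟩ := GG_inn h he P.r0 hri
  have hS : prS q.e₁ (q.c₀ ^ 2 / 16) ≤ prS q.e₁ (d.r2 z) := by
    refine H281.EP.prS_mono he ?_ ?_ ?_
    · show (0 : ℝ) ≤ _
      positivity
    · exact P.r0.le
    · have := O.r
      nlinarith [sq_nonneg q.c₀]
  have hS0 : 0 < prS q.e₁ (q.c₀ ^ 2 / 16) := S_pos he (by positivity)
  have hE : 3 / 4 * (q.Cs * q.M₀) ≤ Real.exp (d.u q z) := by
    have c1 : 0 < q.Cs * q.M₀ := mul_pos (by linarith [T.Cs1]) (by linarith [T.T.M1])
    have c2 : 2 * sw q.Cs q.M₀ - 1 / 4 ≤ d.u q z := by linarith [hu.1]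
    have c3 := Real.exp_le_exp.2 c2
    have c4 : 2 * sw q.Cs q.M₀ - 1 / 4 = Real.log (q.Cs * q.M₀) + -(1 / 4) := by
      unfold sw; ring
    rw [c4, Real.exp_add, Real.exp_log c1] at c3
    have c5 := Real.add_one_le_exp (-(1 / 4) : ℝ)
    have c6 := mul_le_mul_of_nonneg_left c5 c1.le
    linarith
  have hGN : deriv d.Φ (d.u q z) ≤ 1 / 20 * GG q d z := by
    have c1 : 0 < q.M₀ := by linarith [T.T.M1]
    have c2 := mul_le_mul_of_nonneg_left T.act c1.le
    have c3 : 3 / 4 * (q.Cs * q.M₀) * prS q.e₁ (q.c₀ ^ 2 / 16) ≤ GG q d z := by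
      rw [G1]
      exact mul_le_mul hE hS hS0.le (Real.exp_pos _).le
    have c4 : H238.C.N₁ q = q.M₀ * ((1 + q.ph.CT) * q.ph.Cb) := by
      unfold H238.C.N₁; ring
    rw [c4] at hN
    nlinarith
  -- the gradient of `u`
  have hl : ∀ x : V n, d.l x ≤ d.l₀ q + 3 * q.R → nn (fun i => pd i d.l x) ≤ 1001 / 1000 :=
    fun x hx => (nn_grad_le T.I h hx).trans (by linarith)
  have hux : nn (Dv e (d.u q) z) ≤ 13 / 10 := by
    rw [u_vec D h hg]
    refine (nn_add_le _ _).trans ?_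
    have b1 : nn (fun i => pd i d.l (pt z)) ≤ 1001 / 1000 := by
      rcases hpt with h1 | h1
      · rw [h1]; exact hl _ (by linarith [O.l1])
      · rw [h1]; exact hl _ (by linarith [O.l2])
    have b2 : nn ((2 * deriv d.χ (d.r2 z) * d.μc q (d.l (mid z))) • Dv e d.r2 z) ≤ 1 / 20 := by
      rw [nn_smul]
      have c1 : nn (Dv e d.r2 z) ≤ 5 := by
        have c2 := P.b2
        have c3 : 0 < √(d.r2 z) := rr_pos P.r0
        rw [nn_smul, abs_of_pos (by positivity), inv_mul_le_iff₀ (by positivity)] at c2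
        have c4 : √(d.r2 z) ≤ 2 := r2'
        have c5 : 2 * √(d.r2 z) * (1 + 3 * tq n q) ≤ 2 * 2 * (5 / 4) := by
          refine mul_le_mul (by linarith) (by linarith) (by linarith) (by norm_num)
        linarith
      have c2 : |2 * deriv d.χ (d.r2 z) * d.μc q (d.l (mid z))| ≤ 1 / 100 := by
        rw [abs_mul, abs_mul, abs_of_pos (by norm_num : (0 : ℝ) < 2)]
        have d1 := chi_d h (d.r2 z)
        have d2 := (d.μc_abs q (d.l (mid z))).trans (h.ph.isμ.bd _)
        have d3 := H932.EP.cSt_one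
        have d4 : 2 * |deriv d.χ (d.r2 z)| ≤ 2 * (cSt / 3) := by linarith
        calc _ ≤ 2 * (cSt / 3) * (6 * 1 * Real.log q.M₀ ^ (-(1 / 2) : ℝ)) :=
              mul_le_mul d4 d2 (abs_nonneg _) (by linarith)
          _ ≤ _ := by linarith [T.mu]
      calc _ ≤ 1 / 100 * 5 := mul_le_mul c2 c1 (nn_nonneg _) (by norm_num)
        _ = _ := by norm_num
    have b3 : nn ((d.χ (d.r2 z) * deriv (d.μc q) (d.l (mid z))) • fun i => pd i d.l (mid z)) ≤
        2 / 10 := by
      rw [nn_smul, abs_mul]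
      have d1 : |d.χ (d.r2 z)| ≤ 1 := by
        have := h.χb (d.r2 z)
        rw [abs_of_nonneg this.1]
        exact this.2
      have d2 : |deriv (d.μc q) (d.l (mid z))| ≤ 3 / 20 := by
        refine (muc_d h hR _).trans ?_
        have : cSt / (4 * q.R) ≤ 1 / 40 := by
          rw [div_le_iff₀ (by positivity)]
          linarith [T.R1]
        linarith
      have d3 := hl (mid z) (by linarith)
      calc _ ≤ 1 * (3 / 20) * (1001 / 1000) :=
            mul_le_mul (mul_le_mul d1 d2 (abs_nonneg _) (by norm_num)) d3 (nn_nonneg _)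
              (by norm_num)
        _ ≤ _ := by norm_num
    have b4 := nn_add_le ((2 * deriv d.χ (d.r2 z) * d.μc q (d.l (mid z))) • Dv e d.r2 z)
      ((d.χ (d.r2 z) * deriv (d.μc q) (d.l (mid z))) • fun i => pd i d.l (mid z))
    linarith
  refine wx_stiff hW (by linarith) G0.le (two_le_L he (rr_pos P.r0) (by linarith)) ?_ hGN hux ?_
  · rw [D1, abs_zero]
    linarith
  · linarith [P.b1]

/-- The points far from the diagonal. -/
theorem wx_pt_far (D : Dir e s pt) (T : Tw n q) (h : PkOk q d) (O : OB q d z)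
    (P : Pt e s q d z) (hpt : pt z = z.1 ∨ pt z = z.2) (hu : -(q.R / 2) ≤ d.u0 z)
    (hi : Ina q d z) (hr : 3 / 2 * q.p₁ ≤ rr d z) :
    q.e₁ / 10 * (deriv d.Φ (d.u q z) + GG q d z) ≤ nn (Dv e (d.W q) z) := by
  have hg := h.gi_sm T.ε2
  have he := T.rad.e0
  have hR := T.I.R0
  have hW := W_vec e h hg O.l1 O.l2 hR he P.r0
  have N1 := N_one T h (d.u q z)
  have G0 := GG_pos h P.r0
  have t2 := T.t2
  have L1 : prL q.e₁ (rr d z) ≤ 1 - q.e₁ / 5 :=
    T.rad.beyond (t := 1 / 4) (by norm_num) le_rfl hr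
  have hgp := gp_ok T O P hu
  have h1 : 1 - 2 * q.σ ≤ nn (fun i => pd i d.l (pt z)) := by
    rcases hpt with h1 | h1
    · rw [h1]; exact le_nn_grad' T.T h hgp.1
    · rw [h1]; exact le_nn_grad' T.T h hgp.2
  have h2 := wx_far (c := q.e₁ / 5) (δ := q.e₁ / 40) hW (by linarith) G0.le (L_pos he _).le L1
    ?_ ?_ ?_ (by linarith) (by linarith)
  · have e1 : q.e₁ / 5 / 2 = q.e₁ / 10 := by ring
    rwa [e1] at h2
  · refine (D01_le h P.r0).trans (mul_le_mul_of_nonneg_right ?_ G0.le)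
    linarith [T.es1]
  · rw [ux_ina D h hg hi]
    linarith [T.σe]
  · linarith [P.b2]

end Vale.Agent.P088.R2.H912.A
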