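import Vale.Agent.P088.R2.H912.A.WxQ

/-!
# P088, stage 3, zone A: the lower bound of the gradient of the weight from the cut
-/

open Set Filter
open scoped ContDiff Topology

noncomputable section

namespace Vale.Agent.P088.R2.H912.A

open Vale.Agent.P088.LR Vale.Agent.P088.R2.H464.Cu Vale.Agent.P088.R2.H230.W
open Vale.Agent.P088.HY hiding dd
open Vale.Agent.P088.R2.H31.EP hiding r2
open Vale.Agent.P088.R2.H31.EP (r2)

variable {n : ℕ} {e : Fin n → VV n} {s : ℝ} {pt : VV n → V n} {z w : VV n} {q : Cst} {d : Pk n}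

/-- The gradient of the weight where the correction is not active and `r ≤ 2 p₁`. -/
theorem W_cut (D : Dir e s pt) (T : Tw n q) (h : PkOk q d) (O : OB q d z)
    (P : Pt e s q d z) (hi : Ina q d z) (hr : rr d z ≤ 3 * q.p₁) :
    Dv e (d.W q) z = (deriv d.Φ (d.u0 z) + Real.exp (d.u0 z) * prS q.e₁ (d.r2 z)) •
      (fun i => pd i d.l (pt z)) +
      (Real.exp (d.u0 z) * deriv (prS q.e₁) (d.r2 z)) • Dv e d.r2 z := by
  have hg := h.gi_sm T.ε2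
  have he := T.rad.e0
  have hW := W_vec e h hg O.l1 O.l2 T.I.R0 he P.r0
  obtain ⟨G1, D1⟩ := GG_inn h he P.r0 (by linarith [T.r1, T.p1])
  rw [hW, ux_ina D h hg hi, G1, D1, u_ina hi, add_zero, smul_smul]
  congr 2
  have p := H281.EP.pp_ok he
  have h2 := p.Ph1_L (rr_pos P.r0)
  rw [rr_sq P.r0] at h2
  have h3 : deriv (prS q.e₁) (d.r2 z) = H644.Ph1 2 Li q.e₁ rp dp (d.r2 z) :=
    (p.d2_Ph.d1 (d.r2 z)).deriv
  rw [h3]
  have h4 : prL q.e₁ (rr d z) = H644.Lf 2 Li q.e₁ rp dp (rr d z) := rfl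
  have h5 : prS q.e₁ (d.r2 z) = H644.Ph 2 Li q.e₁ rp dp (d.r2 z) := rfl
  have h6 : √(d.r2 z) = rr d z := rfl
  have r0 := (rr_pos P.r0).ne'
  rw [h4, h5, h6]
  field_simp
  linear_combination -h2

theorem W0_vec (D : Dir e s pt) (h : PkOk q d) (he : 0 < q.e₁) (z : VV n) :
    Dv e (d.W0 q) z = (deriv d.Φ (d.u0 z) + Real.exp (d.u0 z) * prS q.e₁ (qq z)) •
      (fun i => pd i d.l (pt z)) +
      (Real.exp (d.u0 z) * deriv (prS q.e₁) (qq z)) • ((2 * s) • dif z) := by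
  funext i
  have h1 : Dv e (d.W0 q) z i = _ := (hv_W0 D h he i (z := z)).e
  rw [h1]
  simp only [Pi.add_apply, Pi.smul_apply, smul_eq_mul]
  unfold Pk.G0
  ring

/-- **Closeness.** Where the correction is not active and `r ≤ 3 p₁` the weight is close to the flat
weight. -/
theorem cut_close (D : Dir e s pt) (T : Tw n q) (h : PkOk q d) (O : OB q d z)
    (P : Pt e s q d z) (hpt : pt z = z.1 ∨ pt z = z.2) (hi : Ina q d z)
    (hr : rr d z ≤ 3 * q.p₁) {δ : ℝ}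
    (hδ : 600 * (MS q * tq n q * (4 * q.p₁) ^ 3) ≤ δ * prS q.e₁ (q.c₀ ^ 2 / 16)) :
    nn (Dv e (d.W q) z - Dv e (d.W0 q) z) ≤ δ / 100 * d.NG q z ∧
      |GG q d z - d.G0 q z| ≤ δ / 600 * d.G0 q z ∧ 0 < d.G0 q z := by
  have he := T.rad.e0
  have hW := W_cut D T h O P hi hr
  have hW0 := W0_vec D h he z
  have N1 := N_one T h (d.u0 z)
  have c0 := T.T.c0
  have t0 := tq_nonneg T
  have t1 := tq_small T
  have hp1 := T.p1
  obtain ⟨G1, -⟩ := GG_inn h he P.r0 (by linarith [T.r1])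
  rw [u_ina hi] at G1
  obtain ⟨M1, -⟩ := MS_spec he
  have a0 := nn_nonneg (dif z)
  have a4 : nn (dif z) ≤ 4 * q.p₁ := by
    have h1 := P.r1
    have h2 : 3 / 4 * nn (dif z) ≤ (1 - tq n q) * nn (dif z) :=
      mul_le_mul_of_nonneg_right (by linarith) a0
    linarith
  have ac : q.c₀ / 4 ≤ nn (dif z) := by
    have h1 := P.r2
    have h2 := P.rc
    have h3 : (1 + tq n q) * nn (dif z) ≤ 2 * nn (dif z) :=
      mul_le_mul_of_nonneg_right (by linarith) a0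
    linarith
  have i1 : d.r2 z ∈ Icc 0 ((4 * q.p₁) ^ 2) := by
    refine ⟨P.r0.le, ?_⟩
    rw [← rr_sq P.r0]
    exact pow_le_pow_left₀ (rr_pos P.r0).le (by linarith) 2
  have i2 : qq z ∈ Icc 0 ((4 * q.p₁) ^ 2) := by
    rw [← nn_dif]
    exact ⟨sq_nonneg _, pow_le_pow_left₀ a0 a4 2⟩
  obtain ⟨l1, l2⟩ := S_lip he i1 i2
  obtain ⟨-, MS2⟩ := MS_spec he
  have l3 := (MS2 _ i2).1
  have b3 := P.b3
  rw [nn_dif] at b3
  have b4 := P.b4
  -- names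
  obtain ⟨E, hE⟩ : ∃ E, E = Real.exp (d.u0 z) := ⟨_, rfl⟩
  obtain ⟨S1, hS1⟩ : ∃ S, S = prS q.e₁ (d.r2 z) := ⟨_, rfl⟩
  obtain ⟨S0, hS0⟩ : ∃ S, S = prS q.e₁ (qq z) := ⟨_, rfl⟩
  obtain ⟨T1, hT1⟩ : ∃ S, S = deriv (prS q.e₁) (d.r2 z) := ⟨_, rfl⟩
  obtain ⟨T0, hT0⟩ : ∃ S, S = deriv (prS q.e₁) (qq z) := ⟨_, rfl⟩
  obtain ⟨N, hN⟩ : ∃ N, N = deriv d.Φ (d.u0 z) := ⟨_, rfl⟩
  obtain ⟨a, ha⟩ : ∃ a, a = nn (dif z) := ⟨_, rfl⟩
  obtain ⟨t, ht⟩ : ∃ t, t = tq n q := ⟨_, rfl⟩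
  obtain ⟨M, hM⟩ : ∃ M, M = MS q := ⟨_, rfl⟩
  obtain ⟨A, hA⟩ : ∃ A, A = 4 * q.p₁ := ⟨_, rfl⟩
  obtain ⟨g, hg⟩ : ∃ g : Fin n → ℝ, g = fun i => pd i d.l (pt z) := ⟨_, rfl⟩
  obtain ⟨ρ, hρ⟩ : ∃ g : Fin n → ℝ, g = Dv e d.r2 z := ⟨_, rfl⟩
  have hNG : d.NG q z = N + E * S0 := by
    rw [hN, hE, hS0]; rfl
  have hG0 : d.G0 q z = E * S0 := by
    rw [hE, hS0]; rfl
  have hm0 : 0 < prS q.e₁ (q.c₀ ^ 2 / 16) := S_pos he (by positivity)
  have hm : prS q.e₁ (q.c₀ ^ 2 / 16) ≤ S0 := by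
    rw [hS0]
    refine H281.EP.prS_mono he ?_ i2.1 ?_
    · show (0 : ℝ) ≤ _
      positivity
    · rw [← nn_dif, show q.c₀ ^ 2 / 16 = (q.c₀ / 4) ^ 2 by ring]
      exact pow_le_pow_left₀ (by positivity) ac 2
  obtain ⟨m, hm'⟩ : ∃ m, m = prS q.e₁ (q.c₀ ^ 2 / 16) := ⟨_, rfl⟩
  have hgn : nn g ≤ 2 := by
    rw [hg]
    have hs := T.T.σ1
    have hl : ∀ x : V n, d.l x ≤ d.l₀ q + 3 * q.R → nn (fun i => pd i d.l x) ≤ 2 :=
      fun x hx => (nn_grad_le T.I h hx).trans (by linarith)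
    have hR := T.I.R0
    rcases hpt with h1 | h1
    · rw [h1]; exact hl _ (by linarith [O.l1])
    · rw [h1]; exact hl _ (by linarith [O.l2])
  rw [← hE, ← hS1, ← hT1, ← hN, ← hg, ← hρ] at hW
  rw [← hE, ← hS0, ← hT0, ← hN, ← hg] at hW0
  rw [← hE, ← hS1] at G1
  rw [G1, hNG, hG0]
  rw [← hS1, ← hS0, ← hM] at l1
  rw [← hT1, ← hT0, ← hM] at l2
  rw [← hT0, ← hM] at l3
  rw [← ht] at b3 b4 t0 t1 hδ
  rw [← ha] at b4 a0 a4
  rw [← nn_dif, ← ha] at b3 l1 l2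
  rw [← hρ] at b4
  rw [← hm'] at hm hm0 hδ
  rw [← hA] at a4 hδ
  rw [← hM] at hδ M1
  rw [← hN] at N1
  have hA1 : 1 ≤ A := by rw [hA]; linarith
  have E0 : 0 < E := hE ▸ Real.exp_pos _
  -- the estimates
  have k2 : M * |d.r2 z - a ^ 2| ≤ M * (t * a ^ 2) := mul_le_mul_of_nonneg_left b3 (by linarith)
  have l1' : |S1 - S0| ≤ M * t * a ^ 2 := l1.trans (k2.trans_eq (by ring))
  have l2' : |T1 - T0| ≤ M * t * a ^ 2 := l2.trans (k2.trans_eq (by ring))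
  have Mt : 0 ≤ M * t := mul_nonneg (by linarith) t0
  have a2A : a ^ 2 ≤ A ^ 2 := pow_le_pow_left₀ a0 a4 2
  have A2 : A ^ 2 ≤ A ^ 3 := pow_le_pow_right₀ hA1 (by norm_num)
  have A1 : A ≤ A ^ 3 := by
    calc A = A ^ 1 := (pow_one A).symm
      _ ≤ A ^ 3 := pow_le_pow_right₀ hA1 (by norm_num)
  have hρn : nn ρ ≤ 3 * a := by
    have h1 := nn_le_add ρ ((2 * s) • dif z)
    have h2 : nn ((2 * s) • dif z) = 2 * a := by
      rw [nn_smul, abs_mul, D.s1, ← ha]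
      norm_num
    have h3 : t * a ≤ 1 * a := mul_le_mul_of_nonneg_right (by linarith) a0
    linarith
  have hdiff : Dv e (d.W q) z - Dv e (d.W0 q) z = (E * (S1 - S0)) • g +
      ((E * (T1 - T0)) • ρ + (E * T0) • (ρ - (2 * s) • dif z)) := by
    rw [hW, hW0]; module
  have A3 : 0 ≤ M * t * A ^ 3 := mul_nonneg Mt (by positivity)
  have k5 : M * t * A ^ 3 * 600 ≤ δ * m := by linarith
  have δ0 : 0 ≤ δ := by
    by_contra hc
    have := mul_neg_of_neg_of_pos (not_le.1 hc) hm0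
    linarith
  have k6 : M * t * A ^ 3 * 600 ≤ δ * S0 := k5.trans (mul_le_mul_of_nonneg_left hm δ0)
  have n4 := mul_le_mul_of_nonneg_left k6 E0.le
  refine ⟨?_, ?_, mul_pos E0 (hm0.trans_le hm)⟩
  · rw [hdiff]
    refine (nn_add_le _ _).trans ?_
    have h1 := nn_add_le ((E * (T1 - T0)) • ρ) ((E * T0) • (ρ - (2 * s) • dif z))
    have n1 : nn ((E * (S1 - S0)) • g) ≤ E * (M * t * A ^ 3 * 2) := by
      rw [nn_smul, abs_mul, abs_of_pos E0, mul_assoc]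
      refine mul_le_mul_of_nonneg_left ?_ E0.le
      refine mul_le_mul (l1'.trans ?_) hgn (nn_nonneg _) (by positivity)
      exact mul_le_mul_of_nonneg_left (a2A.trans A2) Mt
    have n2 : nn ((E * (T1 - T0)) • ρ) ≤ E * (M * t * A ^ 3 * 3) := by
      rw [nn_smul, abs_mul, abs_of_pos E0, mul_assoc]
      refine mul_le_mul_of_nonneg_left ?_ E0.le
      calc |T1 - T0| * nn ρ ≤ M * t * a ^ 2 * (3 * a) :=
            mul_le_mul l2' hρn (nn_nonneg _) (by positivity)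
        _ = M * t * a ^ 3 * 3 := by ring
        _ ≤ _ := by gcongr
    have n3 : nn ((E * T0) • (ρ - (2 * s) • dif z)) ≤ E * (M * t * A ^ 3 * 1) := by
      rw [nn_smul, abs_mul, abs_of_pos E0, mul_assoc]
      refine mul_le_mul_of_nonneg_left ?_ E0.le
      calc |T0| * nn (ρ - (2 * s) • dif z) ≤ M * (t * a) :=
            mul_le_mul l3 b4 (nn_nonneg _) (by linarith)
        _ = M * t * a := by ring
        _ ≤ M * t * A ^ 3 := mul_le_mul_of_nonneg_left (a4.trans A1) Mt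
        _ = _ := by ring
    have n5 : 0 ≤ δ / 100 * N := by positivity
    linarith
  · rw [← mul_sub, abs_mul, abs_of_pos E0]
    have h2 := mul_le_mul_of_nonneg_left (a2A.trans A2) Mt
    have h3 := mul_le_mul_of_nonneg_left (l1'.trans h2) E0.le
    linarith

/-- Near the diagonal, from the cut. -/
theorem wx_pt_cut (D : Dir e s pt) (T : Tw n q) (h : PkOk q d) (O : OB q d z)
    (P : Pt e s q d z) (hpt : pt z = z.1 ∨ pt z = z.2) (hi : Ina q d z)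
    (hr : rr d z ≤ 2 * q.p₁) (hc : q.rT / 2 * d.NG q z ≤ nn (Dv e (d.W0 q) z)) :
    q.rT / 6 * (deriv d.Φ (d.u q z) + GG q d z) < nn (Dv e (d.W q) z) := by
  obtain ⟨h1, h2, h3⟩ := cut_close D T h O P hpt hi (by linarith [T.p1]) T.t3
  have T0 := T.rT0
  have T1 := T.rT1
  rw [u_ina hi]
  have hN := N_one T h (d.u0 z)
  have e1 : d.NG q z = deriv d.Φ (d.u0 z) + d.G0 q z := rfl
  have h4 : GG q d z ≤ 101 / 100 * d.G0 q z := by
    have h5 := (abs_le.1 h2).2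
    have h6 : q.rT / 600 * d.G0 q z ≤ 1 / 600 * d.G0 q z :=
      mul_le_mul_of_nonneg_right (by linarith) h3.le
    linarith
  have h5 : deriv d.Φ (d.u0 z) + GG q d z ≤ 101 / 100 * d.NG q z := by
    rw [e1]; linarith
  have h6 := mul_le_mul_of_nonneg_left h5 (by linarith : 0 ≤ q.rT / 6)
  have h7 := (abs_le.1 (abs_nn_sub_le (Dv e (d.W q) z) (Dv e (d.W0 q) z))).1
  have h8 : 0 < q.rT * d.NG q z := mul_pos T0 (by rw [e1]; linarith)
  linarith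

/-- **A-WX at a point.** -/
theorem wx_pt (D : Dir e s pt) (T : Tw n q) (h : PkOk q d) (O : OB q d z)
    (hpt : pt z = z.1 ∨ pt z = z.2)
    (hc : 3 / 2 * q.p₁ ≤ rr d z ∨
      (rr d z ≤ 2 * q.p₁ ∧ q.rT / 2 * d.NG q z ≤ nn (Dv e (d.W0 q) z))) :
    q.rT / 6 * (deriv d.Φ (d.u q z) + GG q d z) < nn (Dv e (d.W q) z) := by
  have P := pt_ok D T h O
  have hNG : 0 < deriv d.Φ (d.u q z) + GG q d z := by
    linarith [N_one T h (d.u q z), GG_pos h P.r0]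
  have T0 := T.rT0
  have T1 := T.rT1
  have T2 := T.rT2
  have he := T.rad.e0
  rcases lt_or_ge (d.u0 z) (-(q.R / 2)) with hu | hu
  · refine lt_of_lt_of_le ?_ (wx_pt_deep D T h O P hpt hu)
    exact mul_lt_mul_of_pos_right (by linarith) hNG
  by_cases hi : Ina q d z
  · rcases hc with hc | ⟨hr, hc⟩
    · refine lt_of_lt_of_le ?_ (wx_pt_far D T h O P hpt hu hi hc)
      exact mul_lt_mul_of_pos_right (by linarith) hNG
    · exact wx_pt_cut D T h O P hpt hi hr hc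
  · refine lt_of_lt_of_le ?_ (wx_pt_act D T h O P hpt hi)
    exact mul_lt_mul_of_pos_right (by linarith) hNG

end Vale.Agent.P088.R2.H912.A
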