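import Vale.Agent.P088.R2.H912.A.WxG
import Vale.Agent.P088.R2.H509.EP.Lit2
import Vale.Agent.P088.R2.H281.EP.Prs

/-!
# P088, stage 3, zone A: the gradients of the weight and of the flat weight
-/

open Set Filter
open scoped ContDiff Topology

noncomputable section

namespace Vale.Agent.P088.R2.H912.A

open Vale.Agent.P088.LR Vale.Agent.P088.HY Vale.Agent.P088.R2.H464.Cu Vale.Agent.P088.R2.H230.W
open Vale.Agent.P088.R2.H31.EP hiding r2
open Vale.Agent.P088.R2.H31.EP (r2)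

variable {n : ℕ} {e : Fin n → VV n} {s : ℝ} {pt : VV n → V n} {z w : VV n} {q : Cst} {d : Pk n}

/-- Chain rule for `Hv`. -/
theorem Hv.cmp {f : VV n → ℝ} {a b : ℝ} {φ : ℝ → ℝ} (hf : Hv w f a z)
    (hφ : HasDerivAt φ b (f z)) : Hv w (fun z => φ (f z)) (b * a) z := by
  have h := hφ.comp_hasFDerivAt z hf.d.hasFDerivAt
  refine ⟨h.differentiableAt, ?_⟩
  have e1 : fderiv ℝ (fun z => φ (f z)) z = _ := h.fderiv
  rw [e1]
  simp [hf.e]

theorem Hv.congr {f f' : VV n → ℝ} {a : ℝ} (h : Hv w f a z) (he : f' =ᶠ[𝓝 z] f) :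
    Hv w f' a z :=
  ⟨h.d.congr_of_eventuallyEq he, by rw [he.fderiv_eq, h.e]⟩

theorem Hv.eq' {f : VV n → ℝ} {a b : ℝ} (h : Hv w f a z) (he : a = b) : Hv w f b z := he ▸ h

/-- Chain rule for a function of two variables. -/
theorem Hv.cmp2 {f r : VV n → ℝ} {a b A B : ℝ} {ψ : ℝ × ℝ → ℝ} (hf : Hv w f a z)
    (hr : Hv w r b z) (hψ : HasFDerivAt ψ (H768.W.lf A B) (f z, r z)) :
    Hv w (fun z => ψ (f z, r z)) (A * a + B * b) z := by
  have h1 : HasFDerivAt (fun z => (f z, r z)) ((fderiv ℝ f z).prod (fderiv ℝ r z)) z :=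
    hf.d.hasFDerivAt.prodMk hr.d.hasFDerivAt
  have h := hψ.comp z h1
  refine ⟨h.differentiableAt, ?_⟩
  have e1 : fderiv ℝ (fun z => ψ (f z, r z)) z = _ := h.fderiv
  rw [e1]
  simp [H768.W.lf, hf.e, hr.e]

/-! ### The level -/

/-- The gradient of `u`. -/
theorem hv_u (D : Dir e s pt) (hμ : ContDiff ℝ ∞ (d.μc q)) (hχ : ContDiff ℝ ∞ d.χ)
    (hl : ContDiff ℝ ∞ d.l) {i : Fin n} {ρ : ℝ} (hr : Hv (e i) d.r2 ρ z) :
    Hv (e i) (d.u q) (pd i d.l (pt z) + 2 * (deriv d.χ (d.r2 z) * ρ * d.μc q (d.l (mid z)) +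
      d.χ (d.r2 z) * (deriv (d.μc q) (d.l (mid z)) * (1 / 2 * pd i d.l (mid z))))) z := by
  have ld : Differentiable ℝ d.l := hl.differentiable (by simp)
  have h1 := D.l d.l z (ld _) (ld _) i
  have h2 : Hv (e i) (fun z => d.χ (d.r2 z)) (deriv d.χ (d.r2 z) * ρ) z :=
    Hv.cmp hr ((hχ.differentiable (by simp)) _).hasDerivAt
  have h3 : Hv (e i) (fun z => d.l (mid z)) (1 / 2 * pd i d.l (mid z)) z := by
    refine Hv.eq' (Hv.mid (e i) z (ld _)) ?_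
    rw [D.m, map_smul, smul_eq_mul]
    rfl
  have h4 : Hv (e i) (fun z => d.μc q (d.l (mid z)))
      (deriv (d.μc q) (d.l (mid z)) * (1 / 2 * pd i d.l (mid z))) z :=
    Hv.cmp h3 ((hμ.differentiable (by simp)) _).hasDerivAt
  have h5 := h1.add ((h2.mul h4).cmul 2)
  exact h5

/-! ### The weight -/

/-- The weight where `P = id`, `Θ = 0`, off the diagonal. -/
theorem W_eq (h : PkOk q d) (hl1 : d.l z.1 < d.l₀ q + 5 / 2 * q.R) (hl2 : d.l z.2 < d.l₀ q + 5 / 2 * q.R)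
    (hR : 0 < q.R) (hr : 0 < d.r2 z) (hrc : Continuous d.r2) :
    d.W q =ᶠ[𝓝 z] fun z => d.Φ (d.u q z) +
      q.D 0 0 (d.u q z + Real.log (prS q.e₁ (d.r2 z)), √(d.r2 z)) := by
  have lc : Continuous d.l := h.lev.sm.continuous
  have o1 : ∀ᶠ z' in 𝓝 z, d.l z'.1 < d.l₀ q + 5 / 2 * q.R :=
    (isOpen_lt (lc.comp continuous_fst) continuous_const).mem_nhds hl1
  have o2 : ∀ᶠ z' in 𝓝 z, d.l z'.2 < d.l₀ q + 5 / 2 * q.R :=
    (isOpen_lt (lc.comp continuous_snd) continuous_const).mem_nhds hl2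
  have o3 : ∀ᶠ z' in 𝓝 z, 0 < d.r2 z' := (isOpen_lt continuous_const hrc).mem_nhds hr
  filter_upwards [o1, o2, o3] with y h1 h2 h3
  have e1 : d.P y.1 = y.1 := h.ret.id _ (by linarith)
  have e2 : d.P y.2 = y.2 := h.ret.id _ (by linarith)
  have e3 : d.Θ (d.l y.1) = 0 := h.Θ0 _ (by linarith)
  have e4 : d.Θ (d.l y.2) = 0 := h.Θ0 _ (by linarith)
  have e5 := st_out h.ok h3 (u := d.u q y)
  unfold Pk.W WT
  rw [e1, e2, e3, e4]
  show (d.F q).Φ (d.u q y) + 1 * st (d.F q) (d.u q y) (d.r2 y) + (0 + 0) = _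
  rw [e5, one_mul, add_zero, add_zero]
  rfl

/-- `f = u + log S`, `G = ∂_f Ψ`, `D₀₁ = ∂_r Ψ`. -/
def ff (q : Cst) (d : Pk n) (z : VV n) : ℝ := d.u q z + Real.log (prS q.e₁ (d.r2 z))
def rr (d : Pk n) (z : VV n) : ℝ := √(d.r2 z)
def GG (q : Cst) (d : Pk n) (z : VV n) : ℝ := q.D 1 0 (ff q d z, rr d z)
def D01 (q : Cst) (d : Pk n) (z : VV n) : ℝ := q.D 0 1 (ff q d z, rr d z)

theorem rr_pos (hr : 0 < d.r2 z) : 0 < rr d z := Real.sqrt_pos.2 hr

theorem rr_sq (hr : 0 < d.r2 z) : rr d z ^ 2 = d.r2 z := Real.sq_sqrt hr.le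

theorem hv_rr {ρ : ℝ} (hr : 0 < d.r2 z) (h : Hv w d.r2 ρ z) :
    Hv w (rr d) (ρ / (2 * rr d z)) z := by
  have h1 := Hv.cmp (φ := Real.sqrt) h (Real.hasDerivAt_sqrt hr.ne')
  exact Hv.eq' h1 (by unfold rr; field_simp)

/-- `∂ log S(r²) = L ∂ r`. -/
theorem hv_S {ρ : ℝ} (he : 0 < q.e₁) (hr : 0 < d.r2 z) (h : Hv w d.r2 ρ z) :
    Hv w (fun z => Real.log (prS q.e₁ (d.r2 z))) (prL q.e₁ (rr d z) * (ρ / (2 * rr d z))) z := by
  have p := H281.EP.pp_ok he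
  have hS : 0 < prS q.e₁ (d.r2 z) := p.S_pos hr
  have h1 := Hv.cmp (φ := fun s => Real.log (prS q.e₁ s)) h ((p.d2_Ph.d1 _).log hS.ne')
  refine Hv.eq' h1 ?_
  have h2 := p.Ph1_L (rr_pos hr)
  rw [rr_sq hr] at h2
  have r0 := (rr_pos hr).ne'
  have hS' : H644.Ph 2 Li q.e₁ rp dp (d.r2 z) ≠ 0 := hS.ne'
  unfold prL
  field_simp
  linear_combination ρ * h2

/-- The gradient of the weight. -/
theorem hv_W (h : PkOk q d) (hl1 : d.l z.1 < d.l₀ q + 5 / 2 * q.R)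
    (hl2 : d.l z.2 < d.l₀ q + 5 / 2 * q.R) (hR : 0 < q.R) (he : 0 < q.e₁) (hr : 0 < d.r2 z)
    (hrc : Continuous d.r2) {ρ υ : ℝ} (hρ : Hv w d.r2 ρ z) (hυ : Hv w (d.u q) υ z) :
    Hv w (d.W q) ((deriv d.Φ (d.u q z) + GG q d z) * υ +
      (GG q d z * prL q.e₁ (rr d z) + D01 q d z) * (ρ / (2 * rr d z))) z := by
  have h1 : Hv w (fun z => d.Φ (d.u q z)) (deriv d.Φ (d.u q z) * υ) z :=
    Hv.cmp hυ ((h.top.sm.differentiable (by simp)) _).hasDerivAt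
  have h2 : Hv w (fun z => q.D 0 0 (ff q d z, rr d z)) (GG q d z * (υ + prL q.e₁ (rr d z) *
      (ρ / (2 * rr d z))) + D01 q d z * (ρ / (2 * rr d z))) z :=
    Hv.cmp2 (hυ.add (hv_S he hr hρ)) (hv_rr hr hρ) (h.sl.hd 0 0 _ (rr_pos hr))
  refine Hv.congr (Hv.eq' (h1.add h2) (by ring)) (W_eq h hl1 hl2 hR hr hrc)

/-! ### The flat weight -/

theorem hv_qq (D : Dir e s pt) (i : Fin n) : Hv (e i) (qq : VV n → ℝ) (2 * s * dif z i) z := by
  have e1 : (qq : VV n → ℝ) = r2 (fun _ => 1) := by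
    funext z
    unfold qq HY.sq r2 rq bf
    have : ∀ i, ∑ j, (1 : Matrix (Fin n) (Fin n) ℝ) i j * dif z i * dif z j = dif z i ^ 2 := by
      intro i
      rw [Finset.sum_eq_single i]
      · rw [Matrix.one_apply_eq]; ring
      · intro j _ hj; rw [Matrix.one_apply_ne (Ne.symm hj)]; ring
      · intro h; exact absurd (Finset.mem_univ _) h
    rw [Finset.sum_congr rfl fun i _ => this i]
    simp only [dif_apply, Pi.sub_apply]
    ring
  rw [e1]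
  have dc : ∀ j k, DifferentiableAt ℝ (fun x : V n => (fun _ : V n =>
      (1 : Matrix (Fin n) (Fin n) ℝ)) x j k) (mid z) := by
    intro j k
    show DifferentiableAt ℝ (fun _ : V n => (1 : Matrix (Fin n) (Fin n) ℝ) j k) (mid z)
    exact differentiableAt_const _
  refine Hv.eq' (hv_r2 (g := fun _ => 1) D dc (fun x i j => ?_) i) ?_
  · rw [Matrix.one_apply, Matrix.one_apply]
    exact if_congr eq_comm rfl rfl
  · have e2 : ∑ j, (1 : Matrix (Fin n) (Fin n) ℝ) i j * dif z j = dif z i := by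
      simp [Matrix.one_apply]
    have e3 : ∀ j k, pd i (fun _ : V n => (1 : Matrix (Fin n) (Fin n) ℝ) j k) (mid z) = 0 := by
      intro j k
      unfold pd
      simp
    simp only [e2, e3, zero_mul, Finset.sum_const_zero, mul_zero, add_zero]
    ring

theorem hv_W0 (D : Dir e s pt) (h : PkOk q d) (he : 0 < q.e₁) (i : Fin n) :
    Hv (e i) (d.W0 q) ((deriv d.Φ (d.u0 z) + d.G0 q z) * pd i d.l (pt z) +
      Real.exp (d.u0 z) * deriv (prS q.e₁) (qq z) * (2 * s * dif z i)) z := by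
  have p := H281.EP.pp_ok he
  have ld : Differentiable ℝ d.l := h.lev.sm.differentiable (by simp)
  have h1 : Hv (e i) d.u0 (pd i d.l (pt z)) z := D.l d.l z (ld _) (ld _) i
  have h2 : Hv (e i) (fun z => d.Φ (d.u0 z)) (deriv d.Φ (d.u0 z) * pd i d.l (pt z)) z :=
    Hv.cmp h1 ((h.top.sm.differentiable (by simp)) _).hasDerivAt
  have h3 : Hv (e i) (fun z => Real.exp (d.u0 z)) (Real.exp (d.u0 z) * pd i d.l (pt z)) z :=
    Hv.cmp h1 (Real.hasDerivAt_exp _)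
  have h4 : Hv (e i) (fun z => prS q.e₁ (qq z)) (deriv (prS q.e₁) (qq z) * (2 * s * dif z i)) z :=
    Hv.cmp (hv_qq D i) ((p.contDiff_Ph.differentiable (by simp)) _).hasDerivAt
  refine Hv.eq' (h2.add (h3.mul h4)) ?_
  unfold Pk.G0
  ring

end Vale.Agent.P088.R2.H912.A
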